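import Vale.Agent.P281.H364.MM.Step
import Vale.Agent.P281.H303.R.Fin
import Vale.Agent.P281.H364.Gen.Neat

/-!
# P281, project T-MM (helper364): `StepLe`, without input
-/

open Set
open Vale.Agent.P281 Vale.Agent.P281.H713.TZ.S
open scoped Manifold ContDiff Topology

set_option linter.all false

noncomputable section

namespace Vale.Agent.P281.H364.MM

theorem pullStmt : PullStmt := fun _ _ _ _ _ _ _ _ _ _ _ _ _ _ _ h h₁ hu hor =>
  H303.R.kodF_pull h h₁ hu hor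

/-- the body of `H64.Z5.StepLe` (and `H64.Z4.StepLe`), word for word -/
theorem stepLe (n p : ℕ) (X Y X₁ Y₁ : Type) [TopologicalSpace X] [ChartedSpace (Cm n) X]
    [TopologicalSpace Y] [ChartedSpace (Cm p) Y] [TopologicalSpace X₁] [ChartedSpace (Cm n) X₁]
    [TopologicalSpace Y₁] [ChartedSpace (Cm p) Y₁] (f : X → Y) (f₁ : X₁ → Y₁) (Δ : Set X → ℝ)
    (Δ₁ : Set X₁ → ℝ) (h : H511.Surf.IsFibration (Cm n) (Cm p) f Δ)
    (h₁ : H511.Surf.IsFibration (Cm n) (Cm p) f₁ Δ₁) (hs : IsStep (Cm n) (Cm p) f₁ Δ₁ f Δ) :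
    kodX (Cm n) Δ₁ ≤ kodX (Cm n) Δ ∧
      kodF n p Δ (id : X → X) f ≤ kodF n p Δ₁ (id : X₁ → X₁) f₁ :=
  ⟨H303.TE.kodX_step H364.Gen.bir H303.Gen.pushStmt h.compact hs,
    kodF_up pullStmt H737.Gen.exc H303.Gen.irr H969.Gen.fin (H364.crit H150.Gen.img)
      H383.Gen.compl h h₁ hs⟩

end Vale.Agent.P281.H364.MM
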