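import Vale.Agent.P281.H364.MM.Link
import Vale.Agent.P281.H303.R.Link

/-!
# P281, project T-MM (helper364): the fibres of linked fibrations, without input
-/

open Set
open Vale.Agent.P281 Vale.Agent.P281.H713.TZ.S
open Vale.Agent.P281.H64.Thin (IsThinSet)
open Vale.Agent.P281.H511.Surf (IsFibration)
open scoped Manifold ContDiff Topology

set_option linter.all false

noncomputable section

namespace Vale.Agent.P281.H364.MM

/-- **linked fibrations have the same very general fibres** (`FibLink` of `H303/Z6/Core`) -/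
theorem fibLinked (p k : ℕ) (X Y X₁ Y₁ : Type) [t : TopologicalSpace X]
    [c : ChartedSpace (Cm (p + k)) X]
    [s : TopologicalSpace Y] [e : ChartedSpace (Cm p) Y] [t₁ : TopologicalSpace X₁]
    [c₁ : ChartedSpace (Cm (p + k)) X₁] [s₁ : TopologicalSpace Y₁] [e₁ : ChartedSpace (Cm p) Y₁]
    (f : X → Y) (f₁ : X₁ → Y₁) (Δ : Set X → ℝ) (Δ₁ : Set X₁ → ℝ)
    (h : IsFibration (Cm (p + k)) (Cm p) f Δ)
    (hl : Linked (Cm (p + k)) (Cm p) ⟨X, Y, t, s, c, e, f, Δ⟩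
      ⟨X₁, Y₁, t₁, s₁, c₁, e₁, f₁, Δ₁⟩)
    (H₁ : ℕ → Set Y₁) (hH₁ : ∀ j, IsThinSet (Cm p) (H₁ j)) :
    ∃ H : ℕ → Set Y, (∀ j, IsThinSet (Cm p) (H j)) ∧ ∀ y, (∀ j, y ∉ H j) →
      ∀ (F : Type) [TopologicalSpace F] [T2Space F] [ChartedSpace (Cm k) F] (i : F → X),
        H511.Surf.IsFibre (Cm (p + k)) (Cm k) f y i → Function.Injective i →
        ∃ y₁, (∀ j, y₁ ∉ H₁ j) ∧
          ∃ (F₁ : Type) (_ : TopologicalSpace F₁) (_ : T2Space F₁) (_ : ChartedSpace (Cm k) F₁)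
            (i₁ : F₁ → X₁), H511.Surf.IsFibre (Cm (p + k)) (Cm k) f₁ y₁ i₁ ∧
              Function.Injective i₁ ∧
              kodR (Cm (p + k)) (Cm k) i Δ ≤ kodR (Cm (p + k)) (Cm k) i₁ Δ₁ :=
  fibLinked_of (fun p k A B hAB => (H303.R.linked A B hAB).1) p k X Y X₁ Y₁ f f₁ Δ Δ₁ h hl H₁ hH₁

end Vale.Agent.P281.H364.MM
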