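import Vale.Agent.P281.H364.MM.Loc
import Vale.Agent.P281.H713.TZ.S2

/-!
# P281, project T-MM (helper364): pull-back of a local section by an orbifold morphism between
manifolds of the same dimension
-/

open scoped Manifold ContDiff Topology
open Set Filter Metric Vale.Agent.P281 Vale.Agent.P272.K
open Vale.Agent.P281.MF Vale.Agent.P281.ISO Vale.Agent.P281.ELL Vale.Agent.P281.H713

set_option linter.all false

noncomputable section

namespace Vale.Agent.P281.H364.MM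

open Vale.Agent.P281.H713.CO
open Vale.Agent.P281.H713.TZ Vale.Agent.P281.H713.SA

theorem tq_id {n : ℕ} (m : ℕ) (A : Cm n →L[ℂ] Cm n) :
    tq m A (fun j => (finProdFinEquiv.symm j).2) = A.det ^ m := by
  have h1 := tq_comp_left m A (ContinuousLinearMap.id ℂ (Cm n)) fun j => (finProdFinEquiv.symm j).2
  rw [ContinuousLinearMap.comp_id] at h1
  rw [h1]
  have h2 : tq m (ContinuousLinearMap.id ℂ (Cm n)) (fun j => (finProdFinEquiv.symm j).2) = 1 := by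
    unfold tq
    refine Finset.prod_eq_one fun r _ => ?_
    have h3 : mK (ContinuousLinearMap.id ℂ (Cm n))
        (fun c : Fin n => (finProdFinEquiv.symm (finProdFinEquiv (r, c))).2) = 1 := by
      ext a b
      simp only [mK, Matrix.of_apply, Equiv.symm_apply_apply, ContinuousLinearMap.id_apply,
        Matrix.one_apply, Pi.single_apply]
    rw [h3, Matrix.det_one]
  rw [h2, mul_one]

variable {n : ℕ} {Z Y : Type} [TopologicalSpace Z] [ChartedSpace (Cm n) Z]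
  [IsManifold 𝓘(ℂ, Cm n) ω Z] [TopologicalSpace Y] [ChartedSpace (Cm n) Y]
  [IsManifold 𝓘(ℂ, Cm n) ω Y]

/-- The pull-back of a local section of `m (K_Y + Γ)` is a local section of `m (K_Z + Δ')`. -/
theorem pull_X (hgen : GenPart) {f : Z → Y} (hf : ∀ z, HolM (Cm n) (Cm n) f z)
    {Γ : Set Y → ℝ} (hΓ1 : ∀ G, Γ G ≤ 1) {Δ' : Set Z → ℝ} (hΔ' : J.IsSNC (Cm n) Δ')
    (hmor : S.OrbMor (Cm n) (Cm n) f Δ' Γ) (hΓ : J.IsSNC (Cm n) Γ)
    {S : Set Y} (hS : IsClosed S) (hd : Dense {z | f z ∉ S})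
    {m : ℕ} (hm : 0 < m)
    {k : Set Y → ℕ} (hk : ∀ G, (k G : ℝ) = m * Γ G) (hkS : ∀ y, y ∈ S ↔ ∃ G, k G ≠ 0 ∧ y ∈ G)
    {K : Set Z → ℕ} (hK : ∀ D, (K D : ℝ) = m * Δ' D)
    {σ : Y → ℂ} {z₀ : Z}
    (hσ : ∃ (T : Finset (Set Y)) (g : Set Y → Y → ℂ) (a : Y → ℂ), (∀ i, k i ≠ 0 → i ∈ T) ∧
      (∀ i ∈ T, J.IsLocalEq (Cm n) i (g i) (f z₀)) ∧ J.HolAt (Cm n) a (f z₀) ∧
      ∀ᶠ z in 𝓝 (f z₀), ∏ i ∈ T, g i z ^ k i ≠ 0 →
        σ z * ∏ i ∈ T, g i z ^ k i = a z * jac (Cm n) (chartAt (Cm n) (f z₀)) z ^ m)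
    {T : Finset (Set Z)} {gT : Set Z → Z → ℂ}
    (hT : ∀ D, K D ≠ 0 → D ∈ T) (hgT : ∀ D ∈ T, J.IsLocalEq (Cm n) D (gT D) z₀) :
    ∃ Q : Z → ℂ, HolV (Cm n) Q z₀ ∧ ∀ᶠ z in 𝓝 z₀, f z ∉ S →
      σ (f z) * (dM (Cm n) (Cm n) f z).det ^ m * ∏ D ∈ T, gT D z ^ K D =
        Q z * jac (Cm n) (chartAt (Cm n) z₀) z ^ m := by
  have hz₀ : z₀ ∈ (chartAt (Cm n) z₀).source := mem_chart_source (Cm n) z₀
  obtain ⟨Q, hQ, hQe⟩ := tens_loc hgen hf hΓ1 hΔ' hmor hS hd (fun z hz => subset_closure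
    ⟨hz, Eventually.of_forall fun y g hg => hΓ.2.2.2 y g hg⟩) hm hk hkS hK hσ
    (HolV.chart hz₀) (isUnit_dV_chart hz₀) (fun j => (finProdFinEquiv.symm j).2) hT hgT
  refine ⟨Q, hQ, ?_⟩
  filter_upwards [hQe, (chartAt (Cm n) z₀).open_source.mem_nhds hz₀] with z h1 h2 hzS
  have h3 := h1 hzS
  have h4 : tT f m (chartAt (Cm n) z₀ : Z → Cm n) (fun j => (finProdFinEquiv.symm j).2) z *
      jac (Cm n) (chartAt (Cm n) z₀) z ^ m = (dM (Cm n) (Cm n) f z).det ^ m := by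
    unfold tT
    rw [tq_id, ← mul_pow]
    congr 1
    have h5 : jac (Cm n) (chartAt (Cm n) z₀ : Z → Cm n) z =
        (dV (Cm n) (chartAt (Cm n) z₀ : Z → Cm n) z).det := rfl
    rw [h5, ← clm_det_comp]
    congr 1
    have h6 : Ring.inverse (dV (Cm n) (chartAt (Cm n) z₀ : Z → Cm n) z) *
        dV (Cm n) (chartAt (Cm n) z₀ : Z → Cm n) z = 1 :=
      Ring.inverse_mul_cancel _ (isUnit_dV_chart h2)
    have h7 : (Ring.inverse (dV (Cm n) (chartAt (Cm n) z₀ : Z → Cm n) z)).comp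
        (dV (Cm n) (chartAt (Cm n) z₀ : Z → Cm n) z) = ContinuousLinearMap.id ℂ (Cm n) := h6
    rw [ContinuousLinearMap.comp_assoc, h7, ContinuousLinearMap.comp_id]
  rw [← h4, ← h3]
  ring

end Vale.Agent.P281.H364.MM
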