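import Vale.Agent.P281.H308.TW.Fin
import Vale.Agent.P281.H364.MM.PullX
import Vale.Agent.P281.H349.NF.NeatF

/-!
# P281, project T-MM (helper364): `kodF` and modifications of the base

The proof of `pull_ext'` is adapted from `H308/TW/Fin`.
-/

open Set Filter Vale.Agent.P281 Vale.Agent.P281.H713 Vale.Agent.P281.H64
open Vale.Agent.P281.H511.Gen Vale.Agent.P281.H64.Gen
open Vale.Agent.P281.H64.Thin (IsThinSet)
open Vale.Agent.P281.H308.TW (hyp_pre good hol_minors)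
open scoped Topology ContDiff Manifold ENNReal

set_option linter.all false

noncomputable section

namespace Vale.Agent.P281.H364.MM

section One

variable {n p q : ℕ} {X Z Y : Type} [TopologicalSpace X] [ChartedSpace (Cm n) X]
  [IsManifold 𝓘(ℂ, Cm n) ω X] [TopologicalSpace Z] [ChartedSpace (Cm p) Z]
  [IsManifold 𝓘(ℂ, Cm p) ω Z] [TopologicalSpace Y] [ChartedSpace (Cm q) Y]
  [IsManifold 𝓘(ℂ, Cm q) ω Y] {g : X → Z} {h : Z → Y}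

/-- the pull-back to `Z` has poles at most along the orbifold base (which is not assumed to be SNC) -/
theorem pull_ext' (hI : IrrStmt) (hF : FinStmt)
    [T2Space X] [CompactSpace X] [PreconnectedSpace X] [T2Space Z] [PreconnectedSpace Z]
    (hg : ContMDiff 𝓘(ℂ, Cm n) 𝓘(ℂ, Cm p) ω g) (hgs : Function.Surjective g)
    (hh : ContMDiff 𝓘(ℂ, Cm p) 𝓘(ℂ, Cm q) ω h) (hhs : Function.Surjective h)
    {Δ : Set X → ℝ} (hΔ : J.IsSNC (Cm n) Δ)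
    {m : ℕ} {K : Set X → ℕ} (hK : ∀ D, (K D : ℝ) ≤ m * Δ D)
    {𝒢 : Set (Set Y)} (h𝒢f : 𝒢.Finite) (h𝒢 : ∀ G ∈ 𝒢, J.IsPrime (Cm q) G)
    {y₀ : Y} (hy₀ : y₀ ∉ ⋃₀ 𝒢) {σ : Y → ℂ}
    (hσ : TL.IsPullSection (n := n) (p := q) m K 𝒢 (id : X → X) (fun x => h (g x)) σ)
    {K' : Set Z → ℕ} (hK' : ∀ D, K' D = ⌊(m : ℝ) * TZ.S.base (Cm n) (Cm p) g Δ D⌋₊)
    {z₀ : Z} {T : Finset (Set Z)} {gZ : Set Z → Z → ℂ} (hT2 : ∀ D, K' D ≠ 0 → D ∈ T)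
    (hgZ : ∀ D ∈ T, J.IsLocalEq (Cm p) D (gZ D) z₀) (I : Fin m → Fin q → Fin p) :
    ∃ Q : Z → ℂ, J.HolAt (Cm p) Q z₀ ∧ ∀ᶠ z in 𝓝 z₀, h z ∉ ⋃₀ 𝒢 →
      σ (h z) * TL.minors (n := p) (p := q) m (id : Z → Z) h z₀ z I *
        ∏ D ∈ T, gZ D z ^ K' D = Q z := by
  classical
  obtain ⟨-, hWh⟩ := hyp_pre hh hhs h𝒢f h𝒢 hy₀
  obtain ⟨u, hu, hu0, huW⟩ := hWh z₀
  set H : Z → ℂ := fun z => σ (h z) *
      TL.minors (n := p) (p := q) m (id : Z → Z) h z₀ z I * ∏ D ∈ T, gZ D z ^ K' D with hH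
  have hG : ∀ᶠ z in 𝓝 z₀, (z ∈ h ⁻¹' (⋃₀ 𝒢) ↔ u z = 0) ∧
      z ∈ (chartAt (Cm p) z₀).source ∧ ∀ D ∈ T, J.IsLocalEq (Cm p) D (gZ D) z := by
    have h1 : ∀ᶠ z in 𝓝 z₀, ∀ D ∈ T, J.IsLocalEq (Cm p) D (gZ D) z := by
      rw [Filter.eventually_all_finset]
      exact fun D hD => isLocalEq_eventually (hgZ D hD)
    filter_upwards [huW, (chartAt (Cm p) z₀).open_source.mem_nhds (mem_chart_source _ z₀), h1]
      with z a1 a2 a3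
    exact ⟨a1, a2, a3⟩
  obtain ⟨Q, hQ, hQe⟩ := MF.extendM_off (h := H) (Den := u) (x := z₀) hu hu0 (by
    filter_upwards [hG] with z a1 a2
    refine (hol_minors (fun z => hh z) hσ.mero a1.2.1 (fun a3 => a2 (a1.1.1 a3)) I).mul ?_
    exact HolV.prod fun D hD => HolV.pow (show HolV (Cm p) (gZ D) z from
      isLocalEq_holAt (a1.2.2 D hD)) _) (by
    filter_upwards [eventually_eventually_nhds.2 hG] with z₁ hz₁ hu₁
    rw [mem_closure_iff_nhds]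
    intro t₁ ht₁
    obtain ⟨y, ⟨hyt, hyG⟩, hyW, C, hC⟩ := good hI hF H308.TW.loc hg hgs hh hhs hΔ hK h𝒢f h𝒢 hy₀ hσ
      (K' := K') hK' (z₀ := z₀) (gZ := gZ) hT2 (z₁ := z₁)
      (hz₁.self_of_nhds.1.2 hu₁)
      (t := t₁ ∩ {z | ∀ᶠ z' in 𝓝 z, (z' ∈ h ⁻¹' (⋃₀ 𝒢) ↔ u z' = 0) ∧
        z' ∈ (chartAt (Cm p) z₀).source ∧ ∀ D ∈ T, J.IsLocalEq (Cm p) D (gZ D) z'})
      (inter_mem ht₁ (eventually_eventually_nhds.2 hz₁))
      (fun z hz => (show ∀ᶠ z' in 𝓝 z, _ from hz.2).self_of_nhds.2) I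
    have hyG : ∀ᶠ z' in 𝓝 y, (z' ∈ h ⁻¹' (⋃₀ 𝒢) ↔ u z' = 0) ∧
        z' ∈ (chartAt (Cm p) z₀).source ∧ ∀ D ∈ T, J.IsLocalEq (Cm p) D (gZ D) z' := hyG
    refine ⟨y, hyt, hyG.self_of_nhds.1.1 hyW, C, ?_⟩
    filter_upwards [hC, hyG] with z a1 a2 a3
    exact a1 fun a4 => a3 (a2.1.1 a4))
  refine ⟨Q, hQ, ?_⟩
  filter_upwards [hQe, hG] with y a1 a2 a3
  exact a1 fun a4 => a3 (a2.1.2 a4)

end One

section Two

variable {n p : ℕ} {X Z Y : Type} [TopologicalSpace X] [ChartedSpace (Cm n) X]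
  [IsManifold 𝓘(ℂ, Cm n) ω X] [TopologicalSpace Z] [ChartedSpace (Cm p) Z]
  [IsManifold 𝓘(ℂ, Cm p) ω Z] [TopologicalSpace Y] [ChartedSpace (Cm p) Y]
  [IsManifold 𝓘(ℂ, Cm p) ω Y] {g : X → Z} {h : Z → Y}

/-- a hypersurface of a compact manifold is the union of the prime divisors which it contains -/
theorem cover_primes (hI : IrrStmt) (hF : FinStmt) [T2Space Z] [CompactSpace Z] {W : Set Z}
    (hW : IsThinSet (Cm p) W) (hWh : ∀ x, ∃ g : Z → ℂ, J.HolAt (Cm p) g x ∧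
      (¬ ∀ᶠ z in 𝓝 x, g z = 0) ∧ ∀ᶠ z in 𝓝 x, z ∈ W ↔ g z = 0) {z : Z} (hz : z ∈ W) :
    ∃ P : Set Z, J.IsPrime (Cm p) P ∧ P ⊆ W ∧ z ∈ P := by
  have hfin := hF p Z W hW
  have hcl : IsClosed (⋃₀ {D : Set Z | J.IsPrime (Cm p) D ∧ D ⊆ W}) := by
    rw [sUnion_eq_biUnion]
    exact hfin.isClosed_biUnion fun G hG => hG.1.1
  have h1 : z ∈ closure (⋃₀ {D : Set Z | J.IsPrime (Cm p) D ∧ D ⊆ W}) := by
    rw [mem_closure_iff_nhds]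
    intro t ht
    obtain ⟨u, hu, hu0, huW⟩ := hWh z
    obtain ⟨y₁, hy₁t, d₁, hd₁, hd₁0, hdd₁, hd₁W⟩ := exists_smooth hu hu0 huW hz ht
    obtain ⟨D, hD, hDW, hd₁D⟩ := hI p Z W hW.1 hWh y₁ d₁ hd₁ hd₁0 hdd₁ hd₁W
    exact ⟨y₁, hy₁t, D, ⟨hD, hDW⟩, (isLocalEq_mem_iff hd₁D).self_of_nhds.2 hd₁0⟩
  rw [hcl.closure_eq] at h1
  obtain ⟨P, ⟨h2, h3⟩, h4⟩ := h1
  exact ⟨P, h2, h3, h4⟩

theorem minors_left {j : X → X} (m : ℕ) (hg : ∀ x, HolM (Cm n) (Cm p) g x)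
    (hh : ∀ x, HolM (Cm p) (Cm p) h x) (x z : X) (I : Fin m → Fin p → Fin n) :
    TL.minors (n := n) (p := p) m j (fun x => h (g x)) x z I =
      (dM (Cm p) (Cm p) h (g z)).det ^ m * TL.minors (n := n) (p := p) m j g x z I := by
  unfold TL.minors
  have h1 : ∀ v : Cm n, (mfderiv 𝓘(ℂ, Cm n) 𝓘(ℂ, Cm p) (fun x => h (g x)) z : Cm n →L[ℂ] Cm p) v =
      (dM (Cm p) (Cm p) h (g z)) ((dM (Cm n) (Cm p) g z) v) := by
    intro v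
    have h2 := mfderiv_comp (I' := 𝓘(ℂ, Cm p)) z ((hh (g z)).mdifferentiableAt (by simp))
      ((hg z).mdifferentiableAt (by simp))
    exact congrArg (fun T : Cm n →L[ℂ] Cm p => T v) h2
  have h3 : ∀ r : Fin m, (Matrix.of fun a b : Fin p =>
      (mfderiv 𝓘(ℂ, Cm n) 𝓘(ℂ, Cm p) (fun x => h (g x)) z : Cm n →L[ℂ] Cm p)
        (Ring.inverse (M₀ := Cm n →L[ℂ] Cm n)
          (mfderiv 𝓘(ℂ, Cm n) 𝓘(ℂ, Cm n) (fun w => chartAt (Cm n) x (j w)) z)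
          (Pi.single (I r b) 1)) a).det =
      (dM (Cm p) (Cm p) h (g z)).det * (Matrix.of fun a b : Fin p =>
      (mfderiv 𝓘(ℂ, Cm n) 𝓘(ℂ, Cm p) g z : Cm n →L[ℂ] Cm p)
        (Ring.inverse (M₀ := Cm n →L[ℂ] Cm n)
          (mfderiv 𝓘(ℂ, Cm n) 𝓘(ℂ, Cm n) (fun w => chartAt (Cm n) x (j w)) z)
          (Pi.single (I r b) 1)) a).det := by
    intro r
    have h4 := congrArg Matrix.det (SA.mK_comp_left (dM (Cm p) (Cm p) h (g z))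
      ((dM (Cm n) (Cm p) g z).comp (Ring.inverse (M₀ := Cm n →L[ℂ] Cm n)
          (mfderiv 𝓘(ℂ, Cm n) 𝓘(ℂ, Cm n) (fun w => chartAt (Cm n) x (j w)) z))) (I r))
    rw [Matrix.det_mul, SA.det_toMatrix'] at h4
    refine Eq.trans ?_ h4
    congr 1
    ext a b
    simp only [Matrix.of_apply, h1]
    rfl
  simp only [h3]
  rw [Finset.prod_mul_distrib, Finset.prod_const, Finset.card_univ, Fintype.card_fin]

theorem minors_std (m : ℕ) {z₀ z : Z} (hz : z ∈ (chartAt (Cm p) z₀).source) :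
    TL.minors (n := p) (p := p) m (id : Z → Z) h z₀ z (fun _ b => b) *
      jac (Cm p) (chartAt (Cm p) z₀) z ^ m = (dM (Cm p) (Cm p) h z).det ^ m := by
  have h8 : SA.tT h m (chartAt (Cm p) z₀ : Z → Cm p) (fun j => (finProdFinEquiv.symm j).2) z =
      TL.minors (n := p) (p := p) m (id : Z → Z) h z₀ z (fun _ b => b) := by
    unfold SA.tT SA.tq TL.minors SA.mK
    refine Finset.prod_congr rfl fun r _ => ?_
    congr 1
    ext a b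
    simp only [Matrix.of_apply, Equiv.symm_apply_apply]
    rfl
  rw [← h8]
  unfold SA.tT
  rw [tq_id, ← mul_pow]
  congr 1
  have h5 : jac (Cm p) (chartAt (Cm p) z₀ : Z → Cm p) z =
      (dV (Cm p) (chartAt (Cm p) z₀ : Z → Cm p) z).det := rfl
  rw [h5, ← clm_det_comp]
  congr 1
  have h6 : Ring.inverse (dV (Cm p) (chartAt (Cm p) z₀ : Z → Cm p) z) *
      dV (Cm p) (chartAt (Cm p) z₀ : Z → Cm p) z = 1 :=
    Ring.inverse_mul_cancel _ (SA.isUnit_dV_chart hz)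
  have h7 : (Ring.inverse (dV (Cm p) (chartAt (Cm p) z₀ : Z → Cm p) z)).comp
      (dV (Cm p) (chartAt (Cm p) z₀ : Z → Cm p) z) = ContinuousLinearMap.id ℂ (Cm p) := h6
  rw [ContinuousLinearMap.comp_assoc, h7, ContinuousLinearMap.comp_id]

/-- the prime divisors along which the pull-back may have poles -/
def pullG (n p : ℕ) {X Z Y : Type} [TopologicalSpace X] [ChartedSpace (Cm n) X]
    [TopologicalSpace Z] [ChartedSpace (Cm p) Z] (g : X → Z) (Δ : Set X → ℝ) (h : Z → Y)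
    (𝒢 : Set (Set Y)) : Set (Set Z) :=
  {G | TZ.S.base (Cm n) (Cm p) g Δ G ≠ 0} ∪ {G | J.IsPrime (Cm p) G ∧ G ⊆ h ⁻¹' (⋃₀ 𝒢)}

theorem pull_sec (hI : IrrStmt) (hF : FinStmt)
    [T2Space X] [CompactSpace X] [PreconnectedSpace X] [T2Space Z] [CompactSpace Z]
    [PreconnectedSpace Z]
    (hg : ContMDiff 𝓘(ℂ, Cm n) 𝓘(ℂ, Cm p) ω g) (hgs : Function.Surjective g)
    (hh : ContMDiff 𝓘(ℂ, Cm p) 𝓘(ℂ, Cm p) ω h) (hhs : Function.Surjective h)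
    {Δ : Set X → ℝ} (hΔ : J.IsSNC (Cm n) Δ)
    (hb : {G | TZ.S.base (Cm n) (Cm p) g Δ G ≠ 0}.Finite)
    {m : ℕ} {K : Set X → ℕ} (hK : ∀ D, (K D : ℝ) ≤ m * Δ D)
    {𝒢 : Set (Set Y)} (h𝒢f : 𝒢.Finite) (h𝒢 : ∀ G ∈ 𝒢, J.IsPrime (Cm p) G)
    {y₀ : Y} (hy₀ : y₀ ∉ ⋃₀ 𝒢) {σ : Y → ℂ}
    (hσ : TL.IsPullSection (n := n) (p := p) m K 𝒢 (id : X → X) (fun x => h (g x)) σ) :
    (pullG n p g Δ h 𝒢).Finite ∧ (∀ G ∈ pullG n p g Δ h 𝒢, J.IsPrime (Cm p) G) ∧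
      TL.IsPullSection (n := n) (p := p) m K (pullG n p g Δ h 𝒢) (id : X → X) g
        (fun z => σ (h z) * (dM (Cm p) (Cm p) h z).det ^ m) := by
  classical
  obtain ⟨hWc, hWh⟩ := hyp_pre hh hhs h𝒢f h𝒢 hy₀
  have hWt : IsThinSet (Cm p) (h ⁻¹' (⋃₀ 𝒢)) := by
    refine ⟨hWc, fun z => ?_⟩
    obtain ⟨u, h1, h2, h3⟩ := hWh z
    exact ⟨u, h1, h2, h3.mono fun z' h4 h5 => h4.1 h5⟩
  have hfin : (pullG n p g Δ h 𝒢).Finite := hb.union (hF p Z _ hWt)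
  have hpr : ∀ G ∈ pullG n p g Δ h 𝒢, J.IsPrime (Cm p) G := by
    rintro G (hG | hG)
    · exact H399.Gen.isPrime_of hG
    · exact hG.1
  have hcov : ∀ z, h z ∈ ⋃₀ 𝒢 → ∃ P ∈ pullG n p g Δ h 𝒢, (J.IsPrime (Cm p) P ∧
      P ⊆ h ⁻¹' (⋃₀ 𝒢)) ∧ z ∈ P := by
    intro z hz
    obtain ⟨P, h1, h2, h3⟩ := cover_primes hI hF hWt hWh (z := z) hz
    exact ⟨P, Or.inr ⟨h1, h2⟩, ⟨h1, h2⟩, h3⟩
  refine ⟨hfin, hpr, ⟨fun G => ⌊(m : ℝ) * TZ.S.base (Cm n) (Cm p) g Δ G⌋₊ +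
    if J.IsPrime (Cm p) G ∧ G ⊆ h ⁻¹' (⋃₀ 𝒢) then 1 else 0, fun G hG => ?_, fun z₀ => ?_⟩,
    fun x => ?_⟩
  · by_cases h1 : TZ.S.base (Cm n) (Cm p) g Δ G = 0
    · by_cases h2 : J.IsPrime (Cm p) G ∧ G ⊆ h ⁻¹' (⋃₀ 𝒢)
      · exact Or.inr h2
      · exfalso
        apply hG
        show ⌊(m : ℝ) * TZ.S.base (Cm n) (Cm p) g Δ G⌋₊ + _ = 0
        rw [h1, mul_zero, Nat.floor_zero, if_neg h2]
    · exact Or.inl h1
  · set T : Finset (Set Z) := hfin.toFinset with hT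
    have hTm : ∀ D, D ∈ T ↔ D ∈ pullG n p g Δ h 𝒢 := fun D => Set.Finite.mem_toFinset _
    have hch : ∀ D, ∃ u : Z → ℂ, D ∈ T → J.IsLocalEq (Cm p) D u z₀ := by
      intro D
      by_cases hD : D ∈ T
      · obtain ⟨u, hu⟩ := (hpr D ((hTm D).1 hD)).2.1 z₀
        exact ⟨u, fun _ => hu⟩
      · exact ⟨0, fun h => absurd h hD⟩
    choose gZ hgZ using hch
    obtain ⟨Q, hQ, hQe⟩ := pull_ext' hI hF hg hgs hh hhs hΔ hK h𝒢f h𝒢 hy₀ hσ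
      (K' := fun D => ⌊(m : ℝ) * TZ.S.base (Cm n) (Cm p) g Δ D⌋₊) (fun D => rfl) (z₀ := z₀)
      (T := T) (gZ := gZ) (fun D hD => (hTm D).2 (Or.inl fun h0 => hD (by
        show ⌊(m : ℝ) * TZ.S.base (Cm n) (Cm p) g Δ D⌋₊ = 0
        rw [h0, mul_zero, Nat.floor_zero]))) hgZ (fun _ b => b)
    refine ⟨T, gZ, fun z => Q z * ∏ D ∈ T, gZ D z ^ (if J.IsPrime (Cm p) D ∧
      D ⊆ h ⁻¹' (⋃₀ 𝒢) then 1 else 0), fun D hD => ?_, hgZ, ?_, ?_⟩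
    · refine (hTm D).2 ?_
      by_cases h1 : TZ.S.base (Cm n) (Cm p) g Δ D = 0
      · by_cases h2 : J.IsPrime (Cm p) D ∧ D ⊆ h ⁻¹' (⋃₀ 𝒢)
        · exact Or.inr h2
        · exfalso
          apply hD
          show ⌊(m : ℝ) * TZ.S.base (Cm n) (Cm p) g Δ D⌋₊ + _ = 0
          rw [h1, mul_zero, Nat.floor_zero, if_neg h2]
      · exact Or.inl h1
    · exact HolV.mul (show HolV (Cm p) Q z₀ from hQ) (HolV.prod fun D hD =>
        HolV.pow (show HolV (Cm p) (gZ D) z₀ from isLocalEq_holAt (hgZ D hD)) _)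
    · have hev : ∀ᶠ z in 𝓝 z₀, ∀ D ∈ T, (z ∈ D ↔ gZ D z = 0) := by
        rw [Filter.eventually_all_finset]
        exact fun D hD => isLocalEq_mem_iff (hgZ D hD)
      filter_upwards [hQe, hev, (chartAt (Cm p) z₀).open_source.mem_nhds
        (mem_chart_source (Cm p) z₀)] with z h1 h2 hzs h3
      have hz𝒢 : h z ∉ ⋃₀ 𝒢 := by
        intro h4
        obtain ⟨P, hP, hP', hzP⟩ := hcov z h4
        apply h3
        refine Finset.prod_eq_zero ((hTm P).2 hP) ?_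
        rw [(h2 P ((hTm P).2 hP)).1 hzP, if_pos hP', zero_pow (by omega)]
      have h5 := h1 hz𝒢
      have h6 := minors_std (h := h) m hzs
      simp only [pow_add, Finset.prod_mul_distrib]
      show σ (h z) * (dM (Cm p) (Cm p) h z).det ^ m * _ =
        _ * jac (Cm p) (chartAt (Cm p) z₀) z ^ m
      rw [← h6, ← h5]
      ring
  · obtain ⟨T, g', hT, hg', hI'⟩ := hσ.pole x
    refine ⟨T, g', hT, hg', fun I => ?_⟩
    obtain ⟨a, ha, hae⟩ := hI' I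
    refine ⟨a, ha, ?_⟩
    filter_upwards [hae] with y h1 z hz h2 h3
    rw [← h1 z hz (fun G hG hGz => by
      obtain ⟨P, hP, -, hzP⟩ := hcov (g z) ⟨G, hG, hGz⟩
      exact h2 P hP hzP) h3, minors_left m (fun x => hg x) (fun x => hh x)]
    ring

end Two

end Vale.Agent.P281.H364.MM
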