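import Vale.Agent.P281.H364.MM.Base
import Vale.Agent.P281.H383.TD.PushF

/-!
# P281, project T-MM (helper364): `kodF (h ∘ g) ≤ kodF g` for a modification `h`

The proof follows `H383/TD/PushF` (helper383).
-/

open scoped Manifold ContDiff Topology
open Set Filter

set_option linter.all false

noncomputable section

namespace Vale.Agent.P281.H364.MM

open Vale.Agent.P281 Vale.Agent.P281.H713 Vale.Agent.P281.H64 Vale.Agent.P281.H64.Gen
open Vale.Agent.P281.ISO Vale.Agent.P281.H308.Bir Vale.Agent.P281.H713.SA Vale.Agent.P281.MF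
open Vale.Agent.P281.H713.TZ (KodFGE isSection_mono)
open Vale.Agent.P281.H64.Thin (IsThinSet)

variable {n p : ℕ} {X Z Y : Type} [TopologicalSpace X] [ChartedSpace (Cm n) X]
  [TopologicalSpace Z] [ChartedSpace (Cm p) Z] [TopologicalSpace Y] [ChartedSpace (Cm p) Y]
  {g : X → Z} {h : Z → Y}

theorem modif_surj {n : ℕ} {X X₁ : Type} [TopologicalSpace X] [ChartedSpace (Cm n) X]
    [TopologicalSpace X₁] [ChartedSpace (Cm n) X₁] {u : X₁ → X} (hu : TZ.S.IsModif (Cm n) u) :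
    Function.Surjective u := by
  obtain ⟨-, -, hp, U, -, hUd, -, h1⟩ := hu
  have h2 : IsClosed (range u) := hp.isClosedMap.isClosed_range
  have h3 : U ⊆ range u := fun x hx => by
    obtain ⟨z, hz, -⟩ := h1 x hx
    exact ⟨z, hz⟩
  intro x
  exact closure_minimal h3 h2 (by rw [hUd.closure_eq]; trivial)

/-- **`kodF (h ∘ g) ≤ kodF g`** for a modification `h` -/
theorem kodF_base (hI : IrrStmt) (hF : FinStmt) (exc : ExcStmt) {Δ : Set X → ℝ}
    (hg : H511.Surf.IsFibration (Cm n) (Cm p) g Δ) (hh : TZ.S.IsModif (Cm p) h)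
    (hb : {G | TZ.S.base (Cm n) (Cm p) g Δ G ≠ 0}.Finite) :
    TZ.S.kodF n p Δ (id : X → X) (fun x => h (g x)) ≤ TZ.S.kodF n p Δ (id : X → X) g := by
  classical
  have : T2Space X := hg.hausdorff.1
  have : T2Space Z := hg.hausdorff.2
  have : CompactSpace X := hg.compact
  have : ConnectedSpace X := hg.connected
  have : IsManifold 𝓘(ℂ, Cm n) ω X := hg.manifold.1
  have : IsManifold 𝓘(ℂ, Cm p) ω Z := hg.manifold.2
  have : IsManifold 𝓘(ℂ, Cm p) ω Y := hh.1.2.2.1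
  have : T2Space Y := hh.1.1
  have hgs : Function.Surjective g := fun y => (hg.fibres y).nonempty
  have : CompactSpace Z := hgs.compactSpace hg.hol.continuous
  have : ConnectedSpace Z := hgs.connectedSpace hg.hol.continuous
  have : CompactSpace Y := (modif_surj hh).compactSpace hh.2.1.continuous
  have hMv := H349.NF.mod_modif exc hh
  rw [TZ.S.kodF_eq, TZ.S.kodF_eq]
  refine iSup₂_le fun l hl => ?_
  obtain ⟨m, K, 𝒢, s, y₁, hm, hK, h𝒢f, h𝒢p, hpull, hy₁, ht0, hsurj⟩ := hl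
  have hy₀ : y₁ ∉ ⋃₀ 𝒢 := fun ⟨G, hG, hyG⟩ => hy₁ G hG hyG
  have hps := fun b => pull_sec hI hF hg.hol hgs hh.2.1 hMv.surj hg.snc hb hK h𝒢f h𝒢p hy₀ (hpull b)
  have hfin := (hps 0).1
  have hprG := (hps 0).2.1
  -- the sections on `Y`
  choose kb hkb hkbs using fun b : Fin (l + 1) => (hpull b).mero
  set k : Set Y → ℕ := fun G => ∑ b, kb b G with hkd
  have hkG : ∀ G, k G ≠ 0 → G ∈ 𝒢 := by
    intro G hG
    obtain ⟨b, -, hb⟩ := Finset.exists_ne_zero_of_sum_ne_zero hG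
    exact hkb b G hb
  have hkfin : {G | k G ≠ 0}.Finite := h𝒢f.subset fun G hG => hkG G hG
  have h𝒢p' : ∀ G ∈ 𝒢, IsPrimeDivisor (Cm p) G := fun G hG => h𝒢p G hG
  set t : Fin (l + 1) → Y → ℂ := fun b => s b with htd
  have ht : ∀ b, IsSection (Cm p) (fun (D : Set Y) z g => IsLocalEq (Cm p) D g z) m k (t b) :=
    fun b => isSection_mono (fun D => Finset.single_le_sum (f := fun b => kb b D)
      (fun _ _ => Nat.zero_le _) (Finset.mem_univ b)) hkfin (fun G hG => h𝒢p' G (hkG G hG))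
      (hkbs b)
  have hind : LinearIndependent ℂ (fun b : Fin l =>
      dif (Cm p) (fun w => t b.succ w / t 0 w) y₁) :=
    JB.linearIndependent_of_surjective hsurj
  have hoffY : ∀ y, (∀ G ∈ 𝒢, y ∉ G) → ∀ G, k G ≠ 0 →
      ∃ g, IsLocalEq (Cm p) G g y ∧ g y ≠ 0 := by
    intro y hy G hG
    obtain ⟨g, hg⟩ := (h𝒢p' G (hkG G hG)).2.1 y
    exact ⟨g, hg, fun h0 => hy G (hkG G hG) ((show IsLocalEq (Cm p) G g y from hg).mem_iff.2 h0)⟩
  obtain ⟨y₂, hy₂⟩ := good_point ht (hoffY y₁ hy₁) ht0 hind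
  obtain ⟨V, hV, hVo, hyV⟩ := eventually_nhds_iff.1 hy₂
  -- a general point of `Z`
  have hthin := H64.Thin.isThinSet_sUnion hfin hprG
  have hSd : Dense (⋃₀ pullG n p g Δ h 𝒢)ᶜ := (IsSmallSet.of_thin hthin).dense_compl
  have hNo : IsOpen (h '' excSet (Cm p) h)ᶜ := hMv.nclosed.isOpen_compl
  obtain ⟨z₁, hz₁V, hz₁N⟩ := (hMv.dpre _ hNo hMv.ndense).inter_open_nonempty (h ⁻¹' V)
    (hVo.preimage hh.2.1.continuous) (by
      obtain ⟨z, hz⟩ := hMv.surj y₂
      exact ⟨z, by rw [mem_preimage, hz]; exact hyV⟩)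
  obtain ⟨z, ⟨hzV, hzN⟩, hzG⟩ := hSd.inter_open_nonempty (h ⁻¹' V ∩ h ⁻¹' (h '' excSet (Cm p) h)ᶜ)
    ((hVo.preimage hh.2.1.continuous).inter (hNo.preimage hh.2.1.continuous))
    ⟨z₁, hz₁V, hz₁N⟩
  obtain ⟨hg1, hg2, hg3, hg4⟩ := hV (h z) hzV
  have hdet : ∀ w, h w ∉ h '' excSet (Cm p) h → (dM (Cm p) (Cm p) h w).det ≠ 0 := fun w hw =>
    det_ne_of_bij (hMv.exc w hw)
  have hnear : ∀ᶠ w in 𝓝 z, h w ∉ h '' excSet (Cm p) h :=
    (hMv.hol z).continuousAt.eventually (hNo.mem_nhds hzN)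
  have hratio : ∀ b : ℕ, ∀ᶠ w in 𝓝 z,
      (s b (h w) * (dM (Cm p) (Cm p) h w).det ^ m) / (s 0 (h w) *
        (dM (Cm p) (Cm p) h w).det ^ m) = s b (h w) / s 0 (h w) := by
    intro b
    filter_upwards [hnear] with w hw
    rw [mul_div_mul_right _ _ (pow_ne_zero _ (hdet w hw))]
  refine le_iSup₂_of_le l ⟨m, K, pullG n p g Δ h 𝒢,
    fun b z => s b (h z) * (dM (Cm p) (Cm p) h z).det ^ m, z, hm, hK, hfin, hprG,
    fun b => (hps b).2.2, fun G hG hz => hzG ⟨G, hG, hz⟩, ?_, ?_⟩ le_rfl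
  · exact mul_ne_zero hg1 (pow_ne_zero _ (hdet z hzN))
  · have hli : LinearIndependent ℂ fun b : Fin l =>
        dif (Cm p) (fun w => (s (b + 1) (h w) * (dM (Cm p) (Cm p) h w).det ^ m) /
          (s 0 (h w) * (dM (Cm p) (Cm p) h w).det ^ m)) z := by
      have hcomp : (fun b : Fin l =>
          dif (Cm p) (fun w => (s (b + 1) (h w) * (dM (Cm p) (Cm p) h w).det ^ m) /
          (s 0 (h w) * (dM (Cm p) (Cm p) h w).det ^ m)) z) =
          fun b : Fin l => (dif (Cm p) (fun w => t b.succ w / t 0 w) (h z)).comp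
            (dM (Cm p) (Cm p) h z) := by
        funext b
        rw [← dif_comp (hg3 b) (hMv.hol z)]
        refine dV_congr ?_
        filter_upwards [hratio (b + 1)] with w hw
        rw [hw]
        simp [htd]
      rw [hcomp, linearIndependent_precomp (hMv.exc z hzN).2]
      exact hg4
    exact JB.surjective_of_linearIndependent hli

end Vale.Agent.P281.H364.MM
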