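import Vale.Agent.P281.H364.MM.Base2
import Vale.Agent.P281.H383.Gen.Ext
import Vale.Agent.P281.H740.TW.Easy

/-!
# P281, project T-MM (helper364): the fibres of a modification are connected
-/

open scoped Manifold ContDiff Topology
open Set Filter

set_option linter.all false

noncomputable section

namespace Vale.Agent.P281.H364.MM

open Vale.Agent.P281 Vale.Agent.P281.H713 Vale.Agent.P281.H64 Vale.Agent.P281.H64.Gen
open Vale.Agent.P281.ISO Vale.Agent.P281.H308.Bir Vale.Agent.P281.H713.SA Vale.Agent.P281.MF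
open Vale.Agent.P281.H64.Thin (IsThinSet)
open Vale.Agent.P281.H511.Surf (IsFibration)

section

variable {n : ℕ} {X : Type} [TopologicalSpace X] [T2Space X] [ChartedSpace (Cm n) X]
  [IsManifold 𝓘(ℂ, Cm n) ω X]

theorem small_open {Ω : TopologicalSpace.Opens X} {S : Set X} (hS : IsSmallSet (Cm n) S) :
    IsSmallSet (Cm n) (Subtype.val ⁻¹' S : Set Ω) := by
  obtain ⟨hc, H, hH, hsub⟩ := hS
  refine ⟨hc.preimage continuous_subtype_val, fun k => Subtype.val ⁻¹' (H k), fun k => ?_, ?_⟩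
  · obtain ⟨h1, h2⟩ := hH k
    refine ⟨h1.preimage continuous_subtype_val, fun x => ?_⟩
    obtain ⟨g, hg, hg0, hgz⟩ := h2 (x : X)
    refine ⟨fun y => g y, contMDiffAt_subtype_iff.2 hg, fun hcon => ?_,
      continuous_subtype_val.continuousAt.eventually hgz⟩
    apply hg0
    have h3 : map (Subtype.val : Ω → X) (𝓝 x) = 𝓝 (x : X) :=
      Ω.2.isOpenEmbedding_subtypeVal.map_nhds_eq x
    rw [← h3]
    exact hcon
  · rw [← preimage_iUnion]
    exact preimage_mono hsub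

theorem preconnected_diff {Ω : Set X} (hΩ : IsOpen Ω) (hc : IsPreconnected Ω)
    {S : Set X} (hS : IsSmallSet (Cm n) S) : IsPreconnected (Ω \ S) := by
  set O : TopologicalSpace.Opens X := ⟨Ω, hΩ⟩ with hO
  have : PreconnectedSpace O := isPreconnected_iff_preconnectedSpace.1 hc
  have h1 := (H383.Gen.compl n O (Subtype.val ⁻¹' S) (small_open hS)).2
  have h2 := h1.image (Subtype.val : O → X) continuous_subtype_val.continuousOn
  have h3 : (Subtype.val : O → X) '' ((Subtype.val : O → X) ⁻¹' S)ᶜ = Ω \ S := by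
    ext y
    constructor
    · rintro ⟨x, hx, rfl⟩
      exact ⟨x.2, hx⟩
    · rintro ⟨hy, hyS⟩
      exact ⟨⟨y, hy⟩, hyS, rfl⟩
  rwa [h3] at h2

end

/-- the fibres of a modification are connected -/
theorem modif_conn (exc : ExcStmt) {n : ℕ} {X X₁ : Type} [TopologicalSpace X] [CompactSpace X]
    [ChartedSpace (Cm n) X] [TopologicalSpace X₁] [CompactSpace X₁] [ChartedSpace (Cm n) X₁]
    {u : X₁ → X} (hu : TZ.S.IsModif (Cm n) u) (x : X) : IsConnected (u ⁻¹' {x}) := by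
  have : T2Space X := hu.1.1
  have : T2Space X₁ := hu.1.2.1
  have : IsManifold 𝓘(ℂ, Cm n) ω X := hu.1.2.2.1
  have : IsManifold 𝓘(ℂ, Cm n) ω X₁ := hu.1.2.2.2
  have hM := H349.NF.mod_modif exc hu
  have hNs : IsSmallSet (Cm n) (u '' excSet (Cm n) u) := small_of_small2 (exc n X X₁ u hu)
  have huc : Continuous u := hu.2.1.continuous
  have hcl : IsClosed (u ⁻¹' {x}) := isClosed_singleton.preimage huc
  have hNo : IsOpen (u '' excSet (Cm n) u)ᶜ := hNs.1.isOpen_compl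
  refine ⟨hM.surj x, ?_⟩
  rw [isPreconnected_closed_iff]
  intro t t' ht ht' hsub hne hne'
  by_contra hcon
  have hdis : Disjoint (u ⁻¹' {x} ∩ t) (u ⁻¹' {x} ∩ t') := by
    rw [disjoint_left]
    intro z hz hz'
    exact hcon ⟨z, hz.1, hz.2, hz'.2⟩
  obtain ⟨U, U', hU, hU', hAU, hBU, hUU⟩ := SeparatedNhds.of_isCompact_isCompact
    (hcl.inter ht).isCompact (hcl.inter ht').isCompact hdis
  have hW : IsOpen (u '' (U ∪ U')ᶜ)ᶜ := (hM.closed _ (hU.union hU').isClosed_compl).isOpen_compl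
  have hxW : x ∈ (u '' (U ∪ U')ᶜ)ᶜ := by
    rintro ⟨z, hz, hzx⟩
    apply hz
    rcases hsub (show z ∈ u ⁻¹' {x} from hzx) with h1 | h1
    · exact Or.inl (hAU ⟨hzx, h1⟩)
    · exact Or.inr (hBU ⟨hzx, h1⟩)
  have hlc : LocallyConnectedSpace X := ChartedSpace.locallyConnectedSpace (Cm n) X
  obtain ⟨V, ⟨hVo, hxV, hVc⟩, hVW⟩ :=
    (LocallyConnectedSpace.open_connected_basis x).mem_iff.1 (hW.mem_nhds hxW)
  have hC := preconnected_diff hVo hVc.isPreconnected hNs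
  have hopen : ∀ O : Set X₁, IsOpen O → IsOpen (u '' (O ∩ u ⁻¹' (u '' excSet (Cm n) u)ᶜ)) := by
    intro O hO
    rw [isOpen_iff_mem_nhds]
    rintro _ ⟨z, ⟨hzO, hzN⟩, rfl⟩
    exact nhds_le_map (hM.hol z) (hM.exc z hzN)
      (image_mem_map ((hO.inter (hNo.preimage huc)).mem_nhds ⟨hzO, hzN⟩))
  have hnon : ∀ O : Set X₁, IsOpen O → (∃ z ∈ O, u z = x) →
      ((V \ u '' excSet (Cm n) u) ∩ u '' (O ∩ u ⁻¹' (u '' excSet (Cm n) u)ᶜ)).Nonempty := by
    rintro O hO ⟨z, hzO, hzx⟩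
    obtain ⟨z', ⟨h1, h2⟩, h3⟩ := (hM.dpre _ hNo hM.ndense).inter_open_nonempty (O ∩ u ⁻¹' V)
      (hO.inter (hVo.preimage huc)) ⟨z, hzO, by rw [mem_preimage, hzx]; exact hxV⟩
    exact ⟨u z', ⟨h2, h3⟩, z', ⟨h1, h3⟩, rfl⟩
  obtain ⟨y, ⟨hyV, hyN⟩, ⟨z, ⟨hz, -⟩, hzy⟩, z', ⟨hz', -⟩, hzy'⟩ := hC _ _ (hopen U hU) (hopen U' hU')
    (by
      rintro y ⟨hyV, hyN⟩
      obtain ⟨z, rfl⟩ := hM.surj y
      by_cases h1 : z ∈ U
      · exact Or.inl ⟨z, ⟨h1, hyN⟩, rfl⟩
      · by_cases h2 : z ∈ U'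
        · exact Or.inr ⟨z, ⟨h2, hyN⟩, rfl⟩
        · exact absurd ⟨z, fun h3 => h3.elim h1 h2, rfl⟩ (hVW hyV))
    (hnon U hU (by
      obtain ⟨z, hz⟩ := hne
      exact ⟨z, hAU hz, hz.1⟩))
    (hnon U' hU' (by
      obtain ⟨z, hz⟩ := hne'
      exact ⟨z, hBU hz, hz.1⟩))
  have h1 : z = z' := hM.inj z z' (by rw [hzy, hzy']) (by rw [hzy]; exact hyN)
  exact disjoint_left.1 hUU hz (h1 ▸ hz')

/-- the composition of a fibration and a modification is a fibration -/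
theorem fib_modif (exc : ExcStmt) {n p : ℕ} {X Z Y : Type} [TopologicalSpace X]
    [ChartedSpace (Cm n) X] [TopologicalSpace Z] [ChartedSpace (Cm p) Z] [TopologicalSpace Y]
    [ChartedSpace (Cm p) Y] {g : X → Z} {h : Z → Y} {Δ : Set X → ℝ}
    (hg : IsFibration (Cm n) (Cm p) g Δ) (hh : TZ.S.IsModif (Cm p) h) :
    IsFibration (Cm n) (Cm p) (fun x => h (g x)) Δ := by
  have hgs : Function.Surjective g := fun y => (hg.fibres y).nonempty
  have : CompactSpace X := hg.compact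
  have : ConnectedSpace X := hg.connected
  have : CompactSpace Z := hgs.compactSpace hg.hol.continuous
  have : ConnectedSpace Z := hgs.connectedSpace hg.hol.continuous
  have : CompactSpace Y := (modif_surj hh).compactSpace hh.2.1.continuous
  refine H740.comp_fib' hg (Γ := fun _ => 0) ⟨⟨hh.1.2.1, hh.1.1⟩, inferInstance, inferInstance,
    ⟨hh.1.2.2.2, hh.1.2.2.1⟩, hh.2.1, fun y => modif_conn exc hh y, ?_⟩
  exact ⟨by simp, fun D hD => absurd rfl hD, fun D => ⟨0, by simp, le_rfl, zero_le_one⟩,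
    fun x g _ φ => ⟨0, funext fun D => absurd rfl D.2.1⟩⟩

end Vale.Agent.P281.H364.MM
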