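import Vale.Agent.P281.H364.MM.Kod

/-!
# P281, project T-MM (helper364): the Kodaira dimensions of the fibres
-/

open scoped Manifold ContDiff Topology
open Set Filter Metric Vale.Agent.P281 Vale.Agent.P281.H713
open Vale.Agent.P281.H64 (Cm)
open Vale.Agent.P281.H740 (eqF exists_retr mfderiv_chart_self)

set_option linter.all false

noncomputable section

namespace Vale.Agent.P281.H364.MM

open Vale.Agent.P281.H713.TZ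

variable {p d : ℕ} {X Y X₁ Y₁ F F₁ : Type}
  [TopologicalSpace X] [ChartedSpace (Cm (p + d)) X] [IsManifold 𝓘(ℂ, Cm (p + d)) ω X]
  [TopologicalSpace Y] [ChartedSpace (Cm p) Y] [IsManifold 𝓘(ℂ, Cm p) ω Y]
  [TopologicalSpace X₁] [ChartedSpace (Cm (p + d)) X₁] [IsManifold 𝓘(ℂ, Cm (p + d)) ω X₁]
  [TopologicalSpace Y₁] [ChartedSpace (Cm p) Y₁] [IsManifold 𝓘(ℂ, Cm p) ω Y₁]
  [TopologicalSpace F] [ChartedSpace (Cm d) F] [IsManifold 𝓘(ℂ, Cm d) ω F]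
  [TopologicalSpace F₁] [ChartedSpace (Cm d) F₁] [IsManifold 𝓘(ℂ, Cm d) ω F₁]
  {f : X → Y} {f₁ : X₁ → Y₁} {u : X₁ → X} {v : Y₁ → Y} {i : F → X} {i₁ : F₁ → X₁}
  {ν : F₁ → F} {y : Y} {y₁ : Y₁}

/-- **`κ(F, K_F + Δ|F) ≤ κ(F₁, K + Δ₁|F₁)`** -/
theorem kodR_pull (hgen : GenPart) (hf : ContMDiff 𝓘(ℂ, Cm (p + d)) 𝓘(ℂ, Cm p) ω f)
    (hf₁ : ContMDiff 𝓘(ℂ, Cm (p + d)) 𝓘(ℂ, Cm p) ω f₁)
    (hu : ContMDiff 𝓘(ℂ, Cm (p + d)) 𝓘(ℂ, Cm (p + d)) ω u)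
    (hv : ContMDiff 𝓘(ℂ, Cm p) 𝓘(ℂ, Cm p) ω v)
    (hi : ContMDiff 𝓘(ℂ, Cm d) 𝓘(ℂ, Cm (p + d)) ω i)
    (hi₁ : ContMDiff 𝓘(ℂ, Cm d) 𝓘(ℂ, Cm (p + d)) ω i₁)
    (hν : ContMDiff 𝓘(ℂ, Cm d) 𝓘(ℂ, Cm d) ω ν)
    (hcomm : ∀ x, f (u x) = v (f₁ x)) (hiν : ∀ s, i (ν s) = u (i₁ s))
    (hfi : ∀ t, f (i t) = y) (hfi₁ : ∀ s, f₁ (i₁ s) = y₁)
    (hsub : ∀ t, Function.Surjective (mfderiv 𝓘(ℂ, Cm (p + d)) 𝓘(ℂ, Cm p) f (i t)))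
    (hsub₁ : ∀ s, Function.Surjective (mfderiv 𝓘(ℂ, Cm (p + d)) 𝓘(ℂ, Cm p) f₁ (i₁ s)))
    (himm : ∀ t, Function.Injective (mfderiv 𝓘(ℂ, Cm d) 𝓘(ℂ, Cm (p + d)) i t))
    (himm₁ : ∀ s, Function.Injective (mfderiv 𝓘(ℂ, Cm d) 𝓘(ℂ, Cm (p + d)) i₁ s))
    (hinj : Function.Injective i) (hB : (dM (Cm p) (Cm p) v y₁).det ≠ 0)
    {Δ : Set X → ℝ} {Δ₁ : Set X₁ → ℝ} (hΔ : J.IsSNC (Cm (p + d)) Δ)
    (hΔ₁ : J.IsSNC (Cm (p + d)) Δ₁) (hmor : S.OrbMor (Cm (p + d)) (Cm (p + d)) u Δ₁ Δ)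
    (hd : Dense {z | ¬ ∃ D, Δ D ≠ 0 ∧ u z ∈ D})
    (hΩ : Dense {s | ¬ ∃ D, Δ D ≠ 0 ∧ u (i₁ s) ∈ D})
    (hgood : ∀ V : Set F, IsOpen V → V.Nonempty → ∃ s : F₁, ν s ∈ V ∧
      (dM (Cm d) (Cm d) ν s).det ≠ 0 ∧ (∀ D, Δ D ≠ 0 → u (i₁ s) ∉ D) ∧
      ∀ D, Δ₁ D ≠ 0 → i₁ s ∉ D) :
    S.kodR (Cm (p + d)) (Cm d) i Δ ≤ S.kodR (Cm (p + d)) (Cm d) i₁ Δ₁ := by
  classical
  unfold S.kodR J.kod
  refine iSup₂_le ?_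
  rintro j ⟨m, k, s, z, hm, hk, hs, hz, hs0, hsu⟩
  obtain ⟨q, hq, K', hK', -⟩ := exists_denominator (JB.snc hΔ₁)
  have hmq : 0 < m * q := Nat.mul_pos hm hq
  have hkq : ∀ D, ((k D * q : ℕ) : ℝ) = ((m * q : ℕ) : ℝ) * Δ D := by
    intro D
    push_cast
    rw [hk]
    ring
  have hKq : ∀ D, ((m * K' D : ℕ) : ℝ) = ((m * q : ℕ) : ℝ) * Δ₁ D := by
    intro D
    push_cast
    rw [hK']
    ring
  have hk0 : ∀ D, k D * q ≠ 0 → Δ D ≠ 0 := by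
    intro D hD h0
    have h4 := hkq D
    rw [h0, mul_zero] at h4
    exact hD (by exact_mod_cast h4)
  have hd' : Dense {z | ¬ ∃ D, k D * q ≠ 0 ∧ u z ∈ D} := by
    refine hd.mono ?_
    rintro z hz ⟨D, h1, h2⟩
    exact hz ⟨D, hk0 D h1, h2⟩
  have hΩ' : Dense {s | ¬ ∃ D, k D * q ≠ 0 ∧ u (i₁ s) ∈ D} := by
    refine hΩ.mono ?_
    rintro z hz ⟨D, h1, h2⟩
    exact hz ⟨D, hk0 D h1, h2⟩
  obtain ⟨-, -, hScl⟩ := supp_closed hΔ hkq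
  have hΩo : IsOpen {s | ¬ ∃ D, k D * q ≠ 0 ∧ u (i₁ s) ∈ D} :=
    (hScl.preimage (hu.continuous.comp hi₁.continuous)).isOpen_compl
  have hex : ∀ b, ∃ τ : F₁ → ℂ, (∀ t ∈ {s | ¬ ∃ D, k D * q ≠ 0 ∧ u (i₁ s) ∈ D},
      τ t = s b (ν t) ^ q * (dM (Cm d) (Cm d) ν t).det ^ (m * q)) ∧
      J.IsSection (Cm d) (eqF (p + d) i₁) (m * q) (fun D => m * K' D) τ := fun b =>
    extend_fib hi₁ hΩ' fun s₀ => pull_fib hgen hf hf₁ hu hv hi hi₁ hν hcomm hiν hfi hfi₁ hsub hsub₁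
      himm himm₁ hinj hB hΔ hΔ₁ hmor hmq hkq hKq hd' (sec_pow (hs b) q) s₀
  choose τ hτe hτ using hex
  -- a general point
  have hop := H740.kod_open hi hΔ.1 hk hs hz hs0 hsu
  obtain ⟨U, hU1, hU2, hU3⟩ := eventually_nhds_iff.1 hop
  obtain ⟨V, hVU, hVo, hVne, hVu⟩ := exists_ne_all (d := d) (Finset.univ : Finset (Fin j))
    (u := fun b w => s (b + 1) w / s 0 w) (V := U) hU2 ⟨z, hU3⟩ (by
      intro b _ t ht h0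
      obtain ⟨ξ, hξ⟩ := (hU1 t ht).2.2 (Pi.single b 1)
      have h1 := congrFun hξ b
      simp only [Pi.single_eq_same] at h1
      rw [h0] at h1
      exact zero_ne_one h1)
  obtain ⟨s₁, hs₁V, hdet, hoff, hoff₁⟩ := hgood V hVo hVne
  obtain ⟨hz₁, hs₁, hsu₁⟩ := hU1 (ν s₁) (hVU hs₁V)
  have hs₁Ω : s₁ ∈ {s | ¬ ∃ D, k D * q ≠ 0 ∧ u (i₁ s) ∈ D} := by
    rintro ⟨D, h1, h2⟩
    exact hoff D (hk0 D h1) h2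
  have hzC : ∀ D, m * K' D ≠ 0 → ∃ g, eqF (p + d) i₁ D s₁ g ∧ g s₁ ≠ 0 := by
    intro D hD
    have hΓD : Δ₁ D ≠ 0 := by
      intro h0
      have h1 := hKq D
      rw [h0, mul_zero] at h1
      exact hD (by exact_mod_cast h1)
    obtain ⟨e, he⟩ := (hΔ₁.2.1 D hΓD).2.1 (i₁ s₁)
    have h1 : eqF (p + d) i₁ D s₁ (fun c => e (i₁ c)) :=
      ⟨e, he, Eventually.of_forall fun _ => rfl⟩
    exact ⟨_, h1, fun h0 => hoff₁ D hΓD (h1.mem.2 h0)⟩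
  have hτ0 : τ 0 s₁ ≠ 0 := by
    rw [hτe 0 s₁ hs₁Ω]
    exact mul_ne_zero (pow_ne_zero _ hs₁) (pow_ne_zero _ hdet)
  refine le_iSup₂_of_le j ⟨m * q, fun D => m * K' D, τ, s₁, hmq, hKq, hτ, hzC, hτ0, ?_⟩ le_rfl
  have hev : ∀ᶠ t in 𝓝 s₁, t ∈ {s | ¬ ∃ D, k D * q ≠ 0 ∧ u (i₁ s) ∈ D} ∧
      (dM (Cm d) (Cm d) ν t).det ≠ 0 := by
    filter_upwards [hΩo.mem_nhds hs₁Ω, det_ev hν hdet] with t h1 h2
    exact ⟨h1, h2⟩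
  have hrel : ∀ b : Fin j, (fun t => τ (b + 1) t / τ 0 t) =ᶠ[𝓝 s₁]
      (fun t => (s (b + 1) t / s 0 t) ^ q) ∘ ν := by
    intro b
    filter_upwards [hev] with t ht
    show τ (b + 1) t / τ 0 t = (s (b + 1) (ν t) / s 0 (ν t)) ^ q
    rw [hτe (b + 1) t ht.1, hτe 0 t ht.1, mul_div_mul_right _ _ (pow_ne_zero _ ht.2), div_pow]
  have hud : ∀ b : Fin j, MDifferentiableAt 𝓘(ℂ, Cm d) 𝓘(ℂ, ℂ) (fun w => s (b + 1) w / s 0 w)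
      (ν s₁) := by
    intro b
    by_contra hcon
    obtain ⟨ξ, hξ⟩ := hsu₁ (Pi.single b 1)
    have h1 := congrFun hξ b
    have h2 : J.dif (Cm d) (fun w => s (b + 1) w / s 0 w) (ν s₁) = 0 :=
      mfderiv_zero_of_not_mdifferentiableAt hcon
    simp only [h2, Pi.single_eq_same] at h1
    exact zero_ne_one h1
  have hνd : MDifferentiableAt 𝓘(ℂ, Cm d) 𝓘(ℂ, Cm d) ν s₁ := (hν s₁).mdifferentiableAt (by simp)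
  have hder : ∀ (b : Fin j) (ξ : Cm d),
      J.dif (Cm d) (fun t => τ (b + 1) t / τ 0 t) s₁ ξ =
      (q : ℂ) * (s (b + 1) (ν s₁) / s 0 (ν s₁)) ^ (q - 1) *
        J.dif (Cm d) (fun w => s (b + 1) w / s 0 w) (ν s₁) (dM (Cm d) (Cm d) ν s₁ ξ) := by
    intro b ξ
    have h3 : MDifferentiableAt 𝓘(ℂ, Cm d) 𝓘(ℂ, ℂ) (fun t => (s (b + 1) t / s 0 t) ^ q) (ν s₁) :=
      MDifferentiableAt.comp (I' := 𝓘(ℂ, ℂ)) (ν s₁) (g := fun x : ℂ => x ^ q)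
        (f := fun w => s (b + 1) w / s 0 w) (differentiableAt_pow q).mdifferentiableAt (hud b)
    have h4 : mfderiv 𝓘(ℂ, Cm d) 𝓘(ℂ, ℂ) (fun t => (s (b + 1) t / s 0 t) ^ q) (ν s₁) =
        ((q : ℂ) * (s (b + 1) (ν s₁) / s 0 (ν s₁)) ^ (q - 1)) •
          J.dif (Cm d) (fun w => s (b + 1) w / s 0 w) (ν s₁) := by
      have h5 := mfderiv_comp (I' := 𝓘(ℂ, ℂ)) (ν s₁) (g := fun x : ℂ => x ^ q)
        (f := fun w => s (b + 1) w / s 0 w) (differentiableAt_pow q).mdifferentiableAt (hud b)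
      refine Eq.trans h5 ?_
      rw [mfderiv_eq_fderiv]
      refine ContinuousLinearMap.ext fun v => ?_
      show fderiv ℂ (fun x : ℂ => x ^ q) (s (b + 1) (ν s₁) / s 0 (ν s₁))
        (J.dif (Cm d) (fun w => s (b + 1) w / s 0 w) (ν s₁) v) = _
      rw [(hasDerivAt_pow q (s (b + 1) (ν s₁) / s 0 (ν s₁))).hasFDerivAt.fderiv]
      show J.dif (Cm d) (fun w => s (b + 1) w / s 0 w) (ν s₁) v *
        ((q : ℂ) * (s (b + 1) (ν s₁) / s 0 (ν s₁)) ^ (q - 1)) = _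
      rw [mul_comm]
      rfl
    have h6 : J.dif (Cm d) (fun t => τ (b + 1) t / τ 0 t) s₁ =
        (mfderiv 𝓘(ℂ, Cm d) 𝓘(ℂ, ℂ) (fun t => (s (b + 1) t / s 0 t) ^ q) (ν s₁) :
          Cm d →L[ℂ] ℂ).comp (dM (Cm d) (Cm d) ν s₁) := by
      have h7 : mfderiv 𝓘(ℂ, Cm d) 𝓘(ℂ, ℂ) (fun t => τ (b + 1) t / τ 0 t) s₁ =
          mfderiv 𝓘(ℂ, Cm d) 𝓘(ℂ, ℂ) ((fun t => (s (b + 1) t / s 0 t) ^ q) ∘ ν) s₁ :=
        (hrel b).mfderiv_eq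
      exact h7.trans (mfderiv_comp s₁ h3 hνd)
    rw [h6, h4]
    rfl
  -- surjectivity
  intro w
  have hq0 : (q : ℂ) ≠ 0 := by exact_mod_cast hq.ne'
  obtain ⟨ξ', hξ'⟩ := hsu₁ fun b => w b /
    ((q : ℂ) * (s (b + 1) (ν s₁) / s 0 (ν s₁)) ^ (q - 1))
  obtain ⟨ξ, hξ⟩ : ∃ ξ, dM (Cm d) (Cm d) ν s₁ ξ = ξ' := by
    have h1 := SA.isUnit_of_det_ne hdet
    have h2 : (dM (Cm d) (Cm d) ν s₁) * Ring.inverse (dM (Cm d) (Cm d) ν s₁) = 1 :=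
      Ring.mul_inverse_cancel _ h1
    exact ⟨Ring.inverse (dM (Cm d) (Cm d) ν s₁) ξ', congrArg (fun T : Cm d →L[ℂ] Cm d => T ξ') h2⟩
  refine ⟨ξ, ?_⟩
  funext b
  refine (hder b ξ).trans ?_
  rw [hξ]
  have h1 := congrFun hξ' b
  have h2 : J.dif (Cm d) (fun w => s (b + 1) w / s 0 w) (ν s₁) ξ' = w b /
    ((q : ℂ) * (s (b + 1) (ν s₁) / s 0 (ν s₁)) ^ (q - 1)) := h1
  rw [h2]
  refine mul_div_cancel₀ _ (mul_ne_zero hq0 (pow_ne_zero _ ?_))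
  exact hVu b (Finset.mem_univ b) (ν s₁) hs₁V

end Vale.Agent.P281.H364.MM
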