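import Vale.Agent.P281.H308.Bir.Main
import Vale.Agent.P281.H364.MM.Kod2

/-!
# P281, project T-MM (helper364): sections on the fibres are pushed forward

The proofs follow `H308/Bir/Push` (helper308).
-/

open scoped Manifold ContDiff Topology
open Set Filter

set_option linter.all false

noncomputable section

namespace Vale.Agent.P281.H364.MM

open Vale.Agent.P281 Vale.Agent.P281.H64 Vale.Agent.P281.H64.Gen Vale.Agent.P281.ISO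
open Vale.Agent.P281.H308.Bir
open Vale.Agent.P281.H740 (eqF)

variable {n d : ℕ} {X X₁ F F₁ : Type} [TopologicalSpace X] [ChartedSpace (Cm n) X]
  [TopologicalSpace X₁] [ChartedSpace (Cm n) X₁] [IsManifold 𝓘(ℂ, Cm n) ω X]
  [IsManifold 𝓘(ℂ, Cm n) ω X₁] {u : X₁ → X} {N : Set X} [TopologicalSpace F]
  [ChartedSpace (Cm d) F] [IsManifold 𝓘(ℂ, Cm d) ω F] [TopologicalSpace F₁]
  [ChartedSpace (Cm d) F₁] [IsManifold 𝓘(ℂ, Cm d) ω F₁] {i : F → X} {i₁ : F₁ → X₁} {ν : F₁ → F}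
  {A : Set F}

/-- the push-forward of a section, near a point of the complement of `A` -/
theorem push_at_fib (h : Mod (n := n) u N) (hν : Mod (n := d) ν A) (hA : ∀ t, t ∈ A ↔ i t ∈ N)
    (hi₁ : ContMDiff 𝓘(ℂ, Cm d) 𝓘(ℂ, Cm n) ω i₁) (hiν : ∀ s, i (ν s) = u (i₁ s)) {z : F₁}
    (hz : ν z ∉ A) {x₀ : F}
    (hx : ν z ∈ (chartAt (Cm d) x₀).source) {m : ℕ} {K : Set X → ℕ} {k : Set X₁ → ℕ} {s : F₁ → ℂ}
    (hs : J.IsSection (Cm d) (eqF n i₁) m k s)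
    {T : Finset (Set X)} {g : Set X → X → ℂ} (hT : ∀ D, K D ≠ 0 → D ∈ T)
    (hg : ∀ D ∈ T, IsLocalEq (Cm n) D (g D) (i (ν z)))
    (hk : ∀ D, k D ≠ 0 → (∀ w ∈ D, u w ∈ N) ∨ K (u '' D) = k D)
    (hinj : ∀ z, u z ∉ N → ∀ D D', k D ≠ 0 → k D' ≠ 0 → z ∈ D → z ∈ D' → u '' D = u '' D' →
      D = D') :
    ∃ B : F → ℂ, HolV (Cm d) B (ν z) ∧ ∀ᶠ y in 𝓝 (ν z), y ∉ A → (∀ D, K D ≠ 0 → i y ∉ D) →
      s (inv hν y) / (dM (Cm d) (Cm d) ν (inv hν y)).det ^ m * ∏ D ∈ T, g D (i y) ^ K D =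
        B y * jac (Cm d) (chartAt (Cm d) x₀) y ^ m := by
  classical
  obtain ⟨T₁, g₁, a₁, hT₁, hg₁, ha₁, hev⟩ := hs z
  have hch : ∀ D : Set X₁, ∃ e : X₁ → ℂ, D ∈ T₁ → IsLocalEq (Cm n) D e (i₁ z) ∧
      ∀ᶠ t in 𝓝 z, g₁ D t = e (i₁ t) := by
    intro D
    by_cases hD : D ∈ T₁
    · obtain ⟨e, he, hee⟩ := hg₁ D hD
      exact ⟨e, fun _ => ⟨he, hee⟩⟩
    · exact ⟨0, fun h => absurd h hD⟩
  choose e₁ he₁ using hch
  have hzN : u (i₁ z) ∉ N := by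
    rw [← hiν]
    exact fun h1 => hz ((hA _).2 h1)
  have hφ : HolV (Cm d) (fun w => chartAt (Cm d) x₀ (ν w)) z :=
    HolV.comp (h := (chartAt (Cm d) x₀ : F → Cm d)) (HolV.chart hx) (hν.hol z)
  obtain ⟨R, hR, hRe⟩ := H76.jac_local hφ
  have hcomp : ∀ᶠ w in 𝓝 z, jac (Cm d) (fun w => chartAt (Cm d) x₀ (ν w)) w =
      jac (Cm d) (chartAt (Cm d) x₀) (ν w) * (dM (Cm d) (Cm d) ν w).det := by
    filter_upwards [(hν.hol z).continuousAt.eventually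
      ((chartAt (Cm d) x₀).open_source.mem_nhds hx)] with w hws
    have h1 : jac (Cm d) (fun w => chartAt (Cm d) x₀ (ν w)) w =
        (dV (Cm d) (fun w => chartAt (Cm d) x₀ (ν w)) w).det := rfl
    rw [h1, dV_comp (h := (chartAt (Cm d) x₀ : F → Cm d)) (HolV.chart hws) (hν.hol w),
      clm_det_comp]
    rfl
  have hR0 : R z ≠ 0 := by
    intro h0
    have h1 := hRe.self_of_nhds
    rw [hcomp.self_of_nhds, h0, zero_mul] at h1
    exact mul_ne_zero (jac_chart_ne_zero hx) (det_ne_of_bij (hν.exc z hz)) h1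
  obtain ⟨C, hC, hCe⟩ := prod_pull h hzN (K := K) (k := k) hT (by rw [← hiν]; exact hg)
    (fun D hD => (he₁ D hD).1) (fun D hD hzD => by
    rcases hk D hD with h1 | h1
    · exact absurd (h1 _ hzD) hzN
    · exact h1) (hinj _ hzN)
  have hCi : HolV (Cm d) (fun w => C (i₁ w)) z := HolV.comp (E' := Cm n) hC (hi₁ z)
  have hCe' : ∀ᶠ w in 𝓝 z, ∏ D ∈ T, g D (u (i₁ w)) ^ K D =
      C (i₁ w) * ∏ D ∈ T₁, e₁ D (i₁ w) ^ k D :=
    (hi₁.continuous.continuousAt (x := z)).eventually hCe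
  have hge : ∀ᶠ w in 𝓝 z, ∀ D ∈ T₁, g₁ D w = e₁ D (i₁ w) := by
    rw [Filter.eventually_all_finset]
    exact fun D hD => (he₁ D hD).2
  refine ⟨fun y => (fun w => a₁ w * C (i₁ w) / R w ^ m) (inv hν y),
    holV_of_inv hν hz (HolV.div (HolV.mul ha₁ hCi) (hR.pow m) (pow_ne_zero _ hR0)), ?_⟩
  have hgev : ∀ᶠ w in 𝓝 z, ∀ D ∈ T₁, IsLocalEq (Cm n) D (e₁ D) (i₁ w) := by
    rw [Filter.eventually_all_finset]
    exact fun D hD => (hi₁.continuous.continuousAt (x := z)).eventually (he₁ D hD).1.eventually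
  filter_upwards [(tendsto_inv hν hz).eventually ((((hev.and hRe).and (hcomp.and hCe')).and
    (hgev.and hge)).and (hR.continuousAt.eventually_ne hR0))] with y hy hyN hyK
  obtain ⟨⟨⟨⟨h1, h2⟩, h3, h4⟩, h5, hgw⟩, h6⟩ := hy
  have huy : ν (inv hν y) = y := u_inv hν y
  set w := inv hν y with hw
  have huw : u (i₁ w) = i y := by rw [← hiν, huy]
  have hd : (dM (Cm d) (Cm d) ν w).det ≠ 0 := det_ne_of_bij (hν.exc w (by rw [huy]; exact hyN))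
  have hQe : ∏ D ∈ T₁, g₁ D w ^ k D = ∏ D ∈ T₁, e₁ D (i₁ w) ^ k D :=
    Finset.prod_congr rfl fun D hD => by rw [hgw D hD]
  have hQ : ∏ D ∈ T₁, g₁ D w ^ k D ≠ 0 := by
    rw [hQe]
    refine Finset.prod_ne_zero_iff.2 fun D hD => ?_
    by_cases h0 : k D = 0
    · rw [h0, pow_zero]
      exact one_ne_zero
    · refine pow_ne_zero _ fun h7 => ?_
      have h8 : i₁ w ∈ D := (h5 D hD).mem_iff.2 h7
      rcases hk D h0 with h9 | h9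
      · exact hyN ((hA _).2 (by rw [← huw]; exact h9 _ h8))
      · exact hyK (u '' D) (by rw [h9]; exact h0) (by rw [← huw]; exact mem_image_of_mem u h8)
  have e1 := h1 hQ
  rw [huw, ← hQe] at h4
  rw [huy] at h3
  rw [h3] at h2
  show s w / (dM (Cm d) (Cm d) ν w).det ^ m * ∏ D ∈ T, g D (i y) ^ K D =
    a₁ w * C (i₁ w) / R w ^ m * jac (Cm d) (chartAt (Cm d) x₀) y ^ m
  rw [h4]
  have e1' : s w * ∏ D ∈ T₁, g₁ D w ^ k D = a₁ w * jac (Cm d) (chartAt (Cm d) z) w ^ m := e1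
  set dd := (dM (Cm d) (Cm d) ν w).det with hdd
  set Q := ∏ D ∈ T₁, g₁ D w ^ k D with hQQ
  set J := jac (Cm d) (chartAt (Cm d) x₀) y with hJ
  set J₁ := jac (Cm d) (chartAt (Cm d) z) w with hJ₁
  have hdm : dd ^ m ≠ 0 := pow_ne_zero _ hd
  have hRm : R w ^ m ≠ 0 := pow_ne_zero _ h6
  have e2 : J ^ m * dd ^ m = R w ^ m * J₁ ^ m := by rw [← mul_pow, h2, mul_pow]
  rw [div_mul_eq_mul_div, div_mul_eq_mul_div, div_eq_div_iff hdm hRm]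
  calc s w * (C (i₁ w) * Q) * R w ^ m = (s w * Q) * C (i₁ w) * R w ^ m := by ring
    _ = (a₁ w * J₁ ^ m) * C (i₁ w) * R w ^ m := by rw [e1']
    _ = a₁ w * C (i₁ w) * (R w ^ m * J₁ ^ m) := by ring
    _ = a₁ w * C (i₁ w) * J ^ m * dd ^ m := by rw [← e2]; ring

/-- the push-forward of a section, near any point -/
theorem push_local_fib [T2Space F] (hHar : HartogsStmt) (hA2 : IsSmall2 (Cm d) A)
    (h : Mod (n := n) u N) (hν : Mod (n := d) ν A) (hA : ∀ t, t ∈ A ↔ i t ∈ N)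
    (hi : ContMDiff 𝓘(ℂ, Cm d) 𝓘(ℂ, Cm n) ω i)
    (hi₁ : ContMDiff 𝓘(ℂ, Cm d) 𝓘(ℂ, Cm n) ω i₁) (hiν : ∀ s, i (ν s) = u (i₁ s)) (x₀ : F)
    {m : ℕ} {K : Set X → ℕ} {k : Set X₁ → ℕ} {s : F₁ → ℂ}
    (hs : J.IsSection (Cm d) (eqF n i₁) m k s)
    {T : Finset (Set X)} {g : Set X → X → ℂ} (hT : ∀ D, K D ≠ 0 → D ∈ T)
    (hg : ∀ D ∈ T, IsLocalEq (Cm n) D (g D) (i x₀))
    (hGd : Dense {y | y ∉ A ∧ ∀ D, K D ≠ 0 → i y ∉ D})
    (hk : ∀ D, k D ≠ 0 → (∀ w ∈ D, u w ∈ N) ∨ K (u '' D) = k D)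
    (hinj : ∀ z, u z ∉ N → ∀ D D', k D ≠ 0 → k D' ≠ 0 → z ∈ D → z ∈ D' → u '' D = u '' D' →
      D = D') :
    ∃ a : F → ℂ, HolV (Cm d) a x₀ ∧ ∀ᶠ y in 𝓝 x₀, y ∉ A → (∀ D, K D ≠ 0 → i y ∉ D) →
      s (inv hν y) / (dM (Cm d) (Cm d) ν (inv hν y)).det ^ m * ∏ D ∈ T, g D (i y) ^ K D =
        a y * jac (Cm d) (chartAt (Cm d) x₀) y ^ m := by
  classical
  have hgev : ∀ᶠ y in 𝓝 x₀, ∀ D ∈ T, IsLocalEq (Cm n) D (g D) (i y) := by
    rw [Filter.eventually_all_finset]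
    exact fun D hD => (hi.continuous.continuousAt (x := x₀)).eventually (hg D hD).eventually
  obtain ⟨U, hU, hUo, hxU⟩ := eventually_nhds_iff.1 (hgev.and
    ((chartAt (Cm d) x₀).open_source.mem_nhds (mem_chart_source (Cm d) x₀)))
  obtain ⟨b, hb1, hb2⟩ := glueB (n := d) (N := A) hGd hUo hν.nclosed
    (F := fun y => s (inv hν y) / (dM (Cm d) (Cm d) ν (inv hν y)).det ^ m *
      ∏ D ∈ T, g D (i y) ^ K D)
    (J := fun y => jac (Cm d) (chartAt (Cm d) x₀) y ^ m)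
    (fun y hy => pow_ne_zero _ (jac_chart_ne_zero (hU y hy).2)) (by
      intro x hx hxN
      obtain ⟨z, rfl⟩ := hν.surj x
      obtain ⟨B, hB, hBe⟩ := push_at_fib h hν hA hi₁ hiν hxN (hU _ hx).2 hs hT (hU _ hx).1 hk hinj
      refine ⟨B, hB, ?_⟩
      filter_upwards [hBe] with y hy hyG
      exact hy hyG.1 hyG.2)
  obtain ⟨a, ha, hae⟩ := hHar d F A U b hA2 hUo (fun x hx hxN => hb1 x hx hxN)
  refine ⟨a, ha x₀ hxU, ?_⟩
  filter_upwards [hUo.mem_nhds hxU] with y hy hyN hyK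
  rw [hae y hy hyN]
  exact hb2 y hy hyN ⟨hyN, hyK⟩

end Vale.Agent.P281.H364.MM
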