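import Vale.Agent.P281.H364.MM.Down1
import Vale.Agent.P281.H349.NF.NeatF

/-!
# P281, project T-MM (helper364): the Kodaira dimensions of the fibres, second inequality
-/

open scoped Manifold ContDiff Topology
open Set Filter

set_option linter.all false

noncomputable section

namespace Vale.Agent.P281.H364.MM

open Vale.Agent.P281 Vale.Agent.P281.H64 Vale.Agent.P281.H64.Gen Vale.Agent.P281.ISO
open Vale.Agent.P281.H308.Bir Vale.Agent.P281.H713.TZ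
open Vale.Agent.P281.H740 (eqF)

variable {n d : ℕ} {X X₁ F F₁ : Type} [TopologicalSpace X] [ChartedSpace (Cm n) X]
  [TopologicalSpace X₁] [ChartedSpace (Cm n) X₁] [IsManifold 𝓘(ℂ, Cm n) ω X]
  [IsManifold 𝓘(ℂ, Cm n) ω X₁] {u : X₁ → X} {N : Set X} [TopologicalSpace F]
  [ChartedSpace (Cm d) F] [IsManifold 𝓘(ℂ, Cm d) ω F] [TopologicalSpace F₁]
  [ChartedSpace (Cm d) F₁] [IsManifold 𝓘(ℂ, Cm d) ω F₁] {i : F → X} {i₁ : F₁ → X₁} {ν : F₁ → F}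
  {A : Set F}

/-- **`κ(F₁, K + Δ₁|F₁) ≤ κ(F, K + Δ|F)`** -/
theorem kodR_push [T2Space F] (hHar : HartogsStmt) (hA2 : IsSmall2 (Cm d) A)
    (h : Mod (n := n) u N) (hν : Mod (n := d) ν A) (hA : ∀ t, t ∈ A ↔ i t ∈ N)
    (hi : ContMDiff 𝓘(ℂ, Cm d) 𝓘(ℂ, Cm n) ω i)
    (hi₁ : ContMDiff 𝓘(ℂ, Cm d) 𝓘(ℂ, Cm n) ω i₁) (hiν : ∀ s, i (ν s) = u (i₁ s))
    {Δ : Set X → ℝ} {Δ₁ : Set X₁ → ℝ} (hΔ : J.IsSNC (Cm n) Δ) (hΔ₁ : J.IsSNC (Cm n) Δ₁)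
    (hD : ∀ D, Δ₁ D ≠ 0 → (∀ w ∈ D, u w ∈ N) ∨
      (∀ x, ∃ g, IsLocalEq (Cm n) (u '' D) g x) ∧ Δ₁ D = Δ (u '' D))
    (hG : Dense {y : F | y ∉ A ∧ ∀ D, Δ D ≠ 0 → i y ∉ D}) :
    S.kodR (Cm n) (Cm d) i₁ Δ₁ ≤ S.kodR (Cm n) (Cm d) i Δ := by
  classical
  unfold S.kodR J.kod
  refine iSup₂_le ?_
  rintro j ⟨m, k, s, z, hm, hk, hs, hz, hs0, hsu⟩
  obtain ⟨q, hq, K', hK', -⟩ := exists_denominator (JB.snc hΔ)
  have hmq : 0 < m * q := Nat.mul_pos hm hq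
  have hm' : (m : ℝ) ≠ 0 := by exact_mod_cast hm.ne'
  have hq' : (q : ℝ) ≠ 0 := by exact_mod_cast hq.ne'
  have hKq : ∀ D, ((m * K' D : ℕ) : ℝ) = ((m * q : ℕ) : ℝ) * Δ D := by
    intro D
    push_cast
    rw [hK']
    ring
  have hKΔ : ∀ D, m * K' D ≠ 0 ↔ Δ D ≠ 0 := by
    intro D
    have h1 := hK' D
    constructor
    · intro h h0
      rw [h0, mul_zero] at h1
      have h2 : K' D = 0 := by exact_mod_cast h1
      exact h (by rw [h2, mul_zero])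
    · intro h h0
      have h2 : K' D = 0 := (Nat.mul_eq_zero.1 h0).resolve_left hm.ne'
      rw [h2, Nat.cast_zero] at h1
      exact h ((mul_eq_zero.1 h1.symm).resolve_left hq')
  have hkΔ : ∀ D, k D * q ≠ 0 → Δ₁ D ≠ 0 := by
    intro D h1 h2
    have h3 := hk D
    rw [h2, mul_zero] at h3
    exact h1 (by rw [show k D = 0 by exact_mod_cast h3, zero_mul])
  have hkK : ∀ D, k D * q ≠ 0 → (∀ w ∈ D, u w ∈ N) ∨ m * K' (u '' D) = k D * q := by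
    intro D h1
    rcases hD D (hkΔ D h1) with h2 | ⟨-, h2⟩
    · exact Or.inl h2
    · right
      have h3 : ((m * K' (u '' D) : ℕ) : ℝ) = ((k D * q : ℕ) : ℝ) := by
        rw [hKq, ← h2]
        push_cast
        rw [hk D]
        ring
      exact_mod_cast h3
  have hinj : ∀ z, u z ∉ N → ∀ D D', k D * q ≠ 0 → k D' * q ≠ 0 → z ∈ D → z ∈ D' →
      u '' D = u '' D' → D = D' := fun z hz D D' h1 h1' h2 h2' he =>
    comp_inj h (JB.snc hΔ₁) (fun C hC => (hD C hC).imp_right fun h => h.1) hz (hkΔ D h1)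
      (hkΔ D' h1') h2 h2' he
  -- the sections on `F`
  set G : Set F := {y : F | y ∉ A ∧ ∀ D, Δ D ≠ 0 → i y ∉ D} with hGdef
  have hGo : IsOpen G := by
    have h1 : IsClosed (⋃₀ {D | Δ D ≠ 0}) := by
      rw [sUnion_eq_biUnion]
      exact hΔ.1.isClosed_biUnion fun D hD => (hΔ.2.1 D hD).1
    have h2 : G = Aᶜ ∩ i ⁻¹' (⋃₀ {D | Δ D ≠ 0})ᶜ := by
      ext y
      simp only [hGdef, mem_setOf_eq, mem_inter_iff, mem_compl_iff, mem_preimage, mem_sUnion,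
        not_exists, not_and]
    rw [h2]
    exact hν.nclosed.isOpen_compl.inter (h1.isOpen_compl.preimage hi.continuous)
  have hGd : Dense {y | y ∉ A ∧ ∀ D, m * K' D ≠ 0 → i y ∉ D} :=
    hG.mono fun y hy => ⟨hy.1, fun D hD => hy.2 D ((hKΔ D).1 hD)⟩
  have hex : ∀ b, ∃ τ : F → ℂ, (∀ t ∈ {y | y ∉ A ∧ ∀ D, m * K' D ≠ 0 → i y ∉ D},
      τ t = s b (inv hν t) ^ q / (dM (Cm d) (Cm d) ν (inv hν t)).det ^ (m * q)) ∧
      J.IsSection (Cm d) (eqF n i) (m * q) (fun D => m * K' D) τ := by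
    intro b
    refine extend_fib hi hGd fun z₀ => ?_
    set T : Finset (Set X) := hΔ.1.toFinset with hT
    have hTm : ∀ D, D ∈ T ↔ Δ D ≠ 0 := fun D => by
      rw [hT, Set.Finite.mem_toFinset]
      rfl
    have hch : ∀ D, ∃ g : X → ℂ, D ∈ T → J.IsLocalEq (Cm n) D g (i z₀) := by
      intro D
      by_cases hDT : D ∈ T
      · obtain ⟨g, hg⟩ := (hΔ.2.1 D ((hTm D).1 hDT)).2.1 (i z₀)
        exact ⟨g, fun _ => hg⟩
      · exact ⟨0, fun h => absurd h hDT⟩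
    choose g hg using hch
    obtain ⟨a, ha, hae⟩ := push_local_fib hHar hA2 h hν hA hi hi₁ hiν z₀ (m := m * q)
      (K := fun D => m * K' D) (sec_pow (hs b) q) (T := T) (g := g)
      (fun D hD => (hTm D).2 ((hKΔ D).1 hD)) hg hGd hkK hinj
    refine ⟨T, fun D y => g D (i y), a, fun D hD => (hTm D).2 ((hKΔ D).1 hD),
      fun D hD => ⟨g D, hg D hD, Eventually.of_forall fun _ => rfl⟩, ha, ?_⟩
    filter_upwards [hae] with y hy hyG _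
    exact hy hyG.1 hyG.2
  choose τ hτe hτ using hex
  -- a general point
  have hop := H740.kod_open hi₁ hΔ₁.1 hk hs hz hs0 hsu
  obtain ⟨U, hU1, hU2, hU3⟩ := eventually_nhds_iff.1 hop
  obtain ⟨V, hVU, hVo, hVne, hVu⟩ := exists_ne_all (d := d) (Finset.univ : Finset (Fin j))
    (u := fun b w => s (b + 1) w / s 0 w) (V := U) hU2 ⟨z, hU3⟩ (by
      intro b _ t ht h0
      obtain ⟨ξ, hξ⟩ := (hU1 t ht).2.2 (Pi.single b 1)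
      have h1 := congrFun hξ b
      simp only [Pi.single_eq_same] at h1
      rw [h0] at h1
      exact zero_ne_one h1)
  obtain ⟨s₁, hs₁V, hs₁G⟩ := (hν.dpre G hGo hG).inter_open_nonempty V hVo hVne
  have hs₁A : ν s₁ ∉ A := hs₁G.1
  set μ : F → F₁ := inv hν with hμdef
  set t₁ : F := ν s₁ with ht₁
  have hμ₁ : μ t₁ = s₁ := inv_u hν hs₁A
  have hμt : Tendsto μ (𝓝 t₁) (𝓝 s₁) := tendsto_inv hν hs₁A
  obtain ⟨hz₁, hs₁, hsu₁⟩ := hU1 s₁ (hVU hs₁V)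
  have hdet : ∀ t, t ∉ A → (dM (Cm d) (Cm d) ν (μ t)).det ≠ 0 := fun t ht =>
    det_ne_of_bij (hν.exc _ (by rw [hμdef, u_inv hν]; exact ht))
  have hGG : ∀ t ∈ G, t ∈ {y | y ∉ A ∧ ∀ D, m * K' D ≠ 0 → i y ∉ D} := fun t ht =>
    ⟨ht.1, fun D hD => ht.2 D ((hKΔ D).1 hD)⟩
  have hzC : ∀ D, m * K' D ≠ 0 → ∃ g, eqF n i D t₁ g ∧ g t₁ ≠ 0 := by
    intro D hD0
    have hΓD : Δ D ≠ 0 := (hKΔ D).1 hD0
    obtain ⟨e, he⟩ := (hΔ.2.1 D hΓD).2.1 (i t₁)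
    have h1 : eqF n i D t₁ (fun c => e (i c)) :=
      ⟨e, he, Eventually.of_forall fun _ => rfl⟩
    exact ⟨_, h1, fun h0 => hs₁G.2 D hΓD (h1.mem.2 h0)⟩
  have hτ0 : τ 0 t₁ ≠ 0 := by
    rw [hτe 0 t₁ (hGG t₁ hs₁G)]
    refine div_ne_zero (pow_ne_zero _ ?_) (pow_ne_zero _ (hdet t₁ hs₁A))
    show s 0 (μ t₁) ≠ 0
    rw [hμ₁]
    exact hs₁
  refine le_iSup₂_of_le j ⟨m * q, fun D => m * K' D, τ, t₁, hmq, hKq, hτ, hzC, hτ0, ?_⟩ le_rfl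
  have hrel : ∀ b : Fin j, (fun t => τ (b + 1) t / τ 0 t) =ᶠ[𝓝 t₁]
      (fun t => (s (b + 1) t / s 0 t) ^ q) ∘ μ := by
    intro b
    filter_upwards [hGo.mem_nhds hs₁G] with t ht
    show τ (b + 1) t / τ 0 t = (s (b + 1) (μ t) / s 0 (μ t)) ^ q
    rw [hτe (b + 1) t (hGG t ht), hτe 0 t (hGG t ht),
      div_div_div_cancel_right₀ (pow_ne_zero _ (hdet t ht.1)), div_pow]
  have hsu₁' : Function.Surjective fun (ξ : Cm d) (b : Fin j) =>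
      J.dif (Cm d) (fun w => s (b + 1) w / s 0 w) (μ t₁) ξ := by
    rw [hμ₁]
    exact hsu₁
  have hud : ∀ b : Fin j, MDifferentiableAt 𝓘(ℂ, Cm d) 𝓘(ℂ, ℂ) (fun w => s (b + 1) w / s 0 w)
      (μ t₁) := by
    intro b
    by_contra hcon
    obtain ⟨ξ, hξ⟩ := hsu₁' (Pi.single b 1)
    have h1 := congrFun hξ b
    have h2 : J.dif (Cm d) (fun w => s (b + 1) w / s 0 w) (μ t₁) = 0 :=
      mfderiv_zero_of_not_mdifferentiableAt hcon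
    simp only [h2, Pi.single_eq_same] at h1
    exact zero_ne_one h1
  have hμh : HolM (Cm d) (Cm d) μ t₁ :=
    H349.NF.holM_lift hν (i := (id : F → F)) contMDiffAt_id hs₁A
  have hνd : MDifferentiableAt 𝓘(ℂ, Cm d) 𝓘(ℂ, Cm d) μ t₁ :=
    (show ContMDiffAt 𝓘(ℂ, Cm d) 𝓘(ℂ, Cm d) ω μ t₁ from hμh).mdifferentiableAt (by simp)
  have hder : ∀ (b : Fin j) (ξ : Cm d),
      J.dif (Cm d) (fun t => τ (b + 1) t / τ 0 t) t₁ ξ =
      (q : ℂ) * (s (b + 1) (μ t₁) / s 0 (μ t₁)) ^ (q - 1) *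
        J.dif (Cm d) (fun w => s (b + 1) w / s 0 w) (μ t₁) (dM (Cm d) (Cm d) μ t₁ ξ) := by
    intro b ξ
    have h3 : MDifferentiableAt 𝓘(ℂ, Cm d) 𝓘(ℂ, ℂ) (fun t => (s (b + 1) t / s 0 t) ^ q) (μ t₁) :=
      MDifferentiableAt.comp (I' := 𝓘(ℂ, ℂ)) (μ t₁) (g := fun x : ℂ => x ^ q)
        (f := fun w => s (b + 1) w / s 0 w) (differentiableAt_pow q).mdifferentiableAt (hud b)
    have h4 : mfderiv 𝓘(ℂ, Cm d) 𝓘(ℂ, ℂ) (fun t => (s (b + 1) t / s 0 t) ^ q) (μ t₁) =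
        ((q : ℂ) * (s (b + 1) (μ t₁) / s 0 (μ t₁)) ^ (q - 1)) •
          J.dif (Cm d) (fun w => s (b + 1) w / s 0 w) (μ t₁) := by
      have h5 := mfderiv_comp (I' := 𝓘(ℂ, ℂ)) (μ t₁) (g := fun x : ℂ => x ^ q)
        (f := fun w => s (b + 1) w / s 0 w) (differentiableAt_pow q).mdifferentiableAt (hud b)
      refine Eq.trans h5 ?_
      rw [mfderiv_eq_fderiv]
      refine ContinuousLinearMap.ext fun v => ?_
      show fderiv ℂ (fun x : ℂ => x ^ q) (s (b + 1) (μ t₁) / s 0 (μ t₁))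
        (J.dif (Cm d) (fun w => s (b + 1) w / s 0 w) (μ t₁) v) = _
      rw [(hasDerivAt_pow q (s (b + 1) (μ t₁) / s 0 (μ t₁))).hasFDerivAt.fderiv]
      show J.dif (Cm d) (fun w => s (b + 1) w / s 0 w) (μ t₁) v *
        ((q : ℂ) * (s (b + 1) (μ t₁) / s 0 (μ t₁)) ^ (q - 1)) = _
      rw [mul_comm]
      rfl
    have h6 : J.dif (Cm d) (fun t => τ (b + 1) t / τ 0 t) t₁ =
        (mfderiv 𝓘(ℂ, Cm d) 𝓘(ℂ, ℂ) (fun t => (s (b + 1) t / s 0 t) ^ q) (μ t₁) :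
          Cm d →L[ℂ] ℂ).comp (dM (Cm d) (Cm d) μ t₁) := by
      have h7 : mfderiv 𝓘(ℂ, Cm d) 𝓘(ℂ, ℂ) (fun t => τ (b + 1) t / τ 0 t) t₁ =
          mfderiv 𝓘(ℂ, Cm d) 𝓘(ℂ, ℂ) ((fun t => (s (b + 1) t / s 0 t) ^ q) ∘ μ) t₁ :=
        (hrel b).mfderiv_eq
      exact h7.trans (mfderiv_comp t₁ h3 hνd)
    rw [h6, h4]
    rfl
  -- surjectivity
  intro w
  have hq0 : (q : ℂ) ≠ 0 := by exact_mod_cast hq.ne'
  obtain ⟨ξ', hξ'⟩ := hsu₁' fun b => w b /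
    ((q : ℂ) * (s (b + 1) (μ t₁) / s 0 (μ t₁)) ^ (q - 1))
  obtain ⟨ξ, hξ⟩ : ∃ ξ, dM (Cm d) (Cm d) μ t₁ ξ = ξ' := by
    refine ⟨dM (Cm d) (Cm d) ν s₁ ξ', ?_⟩
    have e1 : ∀ᶠ w in 𝓝 s₁, ν w ∉ A :=
      (hν.hol s₁).continuousAt.eventually (hν.nclosed.isOpen_compl.mem_nhds hs₁A)
    have e2 : (μ ∘ ν) =ᶠ[𝓝 s₁] id := by
      filter_upwards [e1] with w hw
      exact inv_u hν hw
    have e3 : mfderiv 𝓘(ℂ, Cm d) 𝓘(ℂ, Cm d) (μ ∘ ν) s₁ =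
        (mfderiv 𝓘(ℂ, Cm d) 𝓘(ℂ, Cm d) μ (ν s₁)).comp
          (mfderiv 𝓘(ℂ, Cm d) 𝓘(ℂ, Cm d) ν s₁) :=
      mfderiv_comp s₁ hνd ((show ContMDiffAt 𝓘(ℂ, Cm d) 𝓘(ℂ, Cm d) ω ν s₁ from
        hν.hol s₁).mdifferentiableAt (by simp))
    rw [e2.mfderiv_eq, mfderiv_id] at e3
    exact (congrArg (fun T : Cm d →L[ℂ] Cm d => T ξ') e3).symm
  refine ⟨ξ, ?_⟩
  funext b
  refine (hder b ξ).trans ?_
  rw [hξ]
  have h1 := congrFun hξ' b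
  have h2 : J.dif (Cm d) (fun w => s (b + 1) w / s 0 w) (μ t₁) ξ' = w b /
    ((q : ℂ) * (s (b + 1) (μ t₁) / s 0 (μ t₁)) ^ (q - 1)) := h1
  rw [h2]
  refine mul_div_cancel₀ _ (mul_ne_zero hq0 (pow_ne_zero _ ?_))
  rw [hμ₁]
  exact hVu b (Finset.mem_univ b) s₁ hs₁V

end Vale.Agent.P281.H364.MM
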