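import Vale.Agent.P281.H364.MM.Kod2
import Vale.Agent.P281.H740.TW.Easy
import Vale.Agent.P281.H349.NF.NeatF
import Vale.Agent.P281.H64.TK.SpecN

/-!
# P281, project T-MM (helper364): the fibres of a model
-/

open scoped Manifold ContDiff Topology
open Set Filter Metric Vale.Agent.P281 Vale.Agent.P281.H713
open Vale.Agent.P281.H64 (Cm IsProperFibration)
open Vale.Agent.P281.H64.Gen (CritStmt ExcStmt IsSmallSet excSet)
open Vale.Agent.P281.H64.Thin (IsThinSet)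
open Vale.Agent.P281.H511.Surf (IsFibration)
open Vale.Agent.P281.H740 (eqF exists_retr mfderiv_chart_self genpos_n thin_pre surj_fib exists_level)

set_option linter.all false

noncomputable section

namespace Vale.Agent.P281.H364.MM

open Vale.Agent.P281.H713.TZ

/-- a map into a fibre factors through the model `F` of the fibre (as `H511/TM/Sit`) -/
theorem exists_map {E E' E₀ E₁ : Type} [NormedAddCommGroup E] [NormedSpace ℂ E]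
    [NormedAddCommGroup E'] [NormedSpace ℂ E'] [NormedAddCommGroup E₀] [NormedSpace ℂ E₀]
    [NormedAddCommGroup E₁] [NormedSpace ℂ E₁] [FiniteDimensional ℂ E] [FiniteDimensional ℂ E']
    [FiniteDimensional ℂ E₀] [FiniteDimensional ℂ E₁] {X Y F G : Type} [TopologicalSpace X]
    [ChartedSpace E X] [IsManifold 𝓘(ℂ, E) ω X] [TopologicalSpace Y] [ChartedSpace E' Y]
    [TopologicalSpace F] [ChartedSpace E₀ F] [IsManifold 𝓘(ℂ, E₀) ω F]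
    [TopologicalSpace G] [ChartedSpace E₁ G]
    (hn : Module.finrank ℂ E = Module.finrank ℂ E' + Module.finrank ℂ E₀)
    {f : X → Y} {i : F → X} {y : Y} (hf : ContMDiff 𝓘(ℂ, E) 𝓘(ℂ, E') ω f)
    (hi : ContMDiff 𝓘(ℂ, E₀) 𝓘(ℂ, E) ω i)
    (hsub : ∀ x, f x = y → Function.Surjective (mfderiv 𝓘(ℂ, E) 𝓘(ℂ, E') f x))
    (himm : ∀ t, Function.Injective (mfderiv 𝓘(ℂ, E₀) 𝓘(ℂ, E) i t)) (hfi : ∀ t, f (i t) = y)
    (hinj : Function.Injective i) (hsur : ∀ x, f x = y → ∃ t, i t = x) {v : G → X}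
    (hv : ContMDiff 𝓘(ℂ, E₁) 𝓘(ℂ, E) ω v) (hfv : ∀ s, f (v s) = y) :
    ∃ ι : G → F, (∀ s, i (ι s) = v s) ∧ ContMDiff 𝓘(ℂ, E₁) 𝓘(ℂ, E₀) ω ι := by
  choose ι hι using fun s => hsur (v s) (hfv s)
  refine ⟨ι, hι, fun s => ?_⟩
  obtain ⟨ρ, hρ, hρ0, hρf⟩ := exists_retr hn hf hi (hsub _ (hfi (ι s))) (himm (ι s)) hfi
  rw [hι s] at hρ hρf
  refine (ContMDiffAt.comp s (g := ρ) (f := v) hρ (hv s)).congr_of_eventuallyEq ?_
  filter_upwards [hv.continuous.continuousAt.eventually hρf] with s' hs'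
  refine hinj ?_
  show i (ι s') = i (ρ (v s'))
  rw [hι, hs' (hfv s')]

/-- **T-MM**: `κ(F, K_F + Δ|F) ≤ κ(F₁, K + Δ₁|F₁)` for the very general fibres `F` of `f`, where `F₁`
is a very general fibre of the model `f₁`. -/
theorem fibMod_of (hgen : GenPart) (exc : ExcStmt) (img : H64.TK.ImgNStmt) (crit : CritStmt)
    {p d : ℕ} {X Y X₁ Y₁ : Type} [TopologicalSpace X] [ChartedSpace (Cm (p + d)) X]
    [TopologicalSpace Y] [ChartedSpace (Cm p) Y] [TopologicalSpace X₁]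
    [ChartedSpace (Cm (p + d)) X₁] [TopologicalSpace Y₁] [ChartedSpace (Cm p) Y₁] {f : X → Y}
    {Δ : Set X → ℝ} {f₁ : X₁ → Y₁} {Δ₁ : Set X₁ → ℝ} (h : IsFibration (Cm (p + d)) (Cm p) f Δ)
    (h₁ : IsFibration (Cm (p + d)) (Cm p) f₁ Δ₁)
    (hs : TZ.S.IsStep (Cm (p + d)) (Cm p) f₁ Δ₁ f Δ) {H₁ : ℕ → Set Y₁}
    (hH₁ : ∀ k, IsThinSet (Cm p) (H₁ k)) :
    ∃ H : ℕ → Set Y, (∀ k, IsThinSet (Cm p) (H k)) ∧ ∀ y, (∀ k, y ∉ H k) →
      ∀ (F : Type) [TopologicalSpace F] [ChartedSpace (Cm d) F] (i : F → X),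
        H511.Surf.IsFibre (Cm (p + d)) (Cm d) f y i → Function.Injective i →
        ∃ (y₁ : Y₁) (F₁ : Type) (_ : TopologicalSpace F₁) (_ : T2Space F₁)
          (_ : ChartedSpace (Cm d) F₁) (i₁ : F₁ → X₁), (∀ k, y₁ ∉ H₁ k) ∧
          H511.Surf.IsFibre (Cm (p + d)) (Cm d) f₁ y₁ i₁ ∧ Function.Injective i₁ ∧
          TZ.S.kodR (Cm (p + d)) (Cm d) i Δ ≤ TZ.S.kodR (Cm (p + d)) (Cm d) i₁ Δ₁ := by
  have : T2Space X := h.hausdorff.1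
  have : T2Space Y := h.hausdorff.2
  have : T2Space X₁ := h₁.hausdorff.1
  have : T2Space Y₁ := h₁.hausdorff.2
  have : CompactSpace X := h.compact
  have : CompactSpace X₁ := h₁.compact
  have : ConnectedSpace X₁ := h₁.connected
  have : ConnectedSpace X := h.connected
  have : Nonempty X := h.connected.toNonempty
  have : IsManifold 𝓘(ℂ, Cm (p + d)) ω X := h.manifold.1
  have : IsManifold 𝓘(ℂ, Cm p) ω Y := h.manifold.2
  have : IsManifold 𝓘(ℂ, Cm (p + d)) ω X₁ := h₁.manifold.1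
  have : IsManifold 𝓘(ℂ, Cm p) ω Y₁ := h₁.manifold.2
  have : CompactSpace Y := by
    have hsur : Function.Surjective f := fun y => (h.fibres y).nonempty
    exact ⟨by rw [← hsur.range_eq]; exact isCompact_range h.hol.continuous⟩
  have : CompactSpace Y₁ := by
    have hsur : Function.Surjective f₁ := fun y => (h₁.fibres y).nonempty
    exact ⟨by rw [← hsur.range_eq]; exact isCompact_range h₁.hol.continuous⟩
  obtain ⟨u, v, hu, hv, hcomm, hf, hf₁, hΔ, hΔ₁, -, hmor⟩ := hs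
  have hMu := H349.NF.mod_modif exc hu
  have hMv := H349.NF.mod_modif exc hv
  have hu' : ContMDiff 𝓘(ℂ, Cm (p + d)) 𝓘(ℂ, Cm (p + d)) ω u := hu.2.1
  have hv' : ContMDiff 𝓘(ℂ, Cm p) 𝓘(ℂ, Cm p) ω v := hv.2.1
  obtain ⟨Sf, hSf, hPf⟩ := crit (p + d) p X Y f h.hol h.fibres
  obtain ⟨S₁, hS₁, hP₁⟩ := crit (p + d) p X₁ Y₁ f₁ h₁.hol h₁.fibres
  obtain ⟨Kf, hKf, hsubf⟩ := hSf.2
  obtain ⟨K₁, hK₁, hsub₁⟩ := hS₁.2
  have hPf' := hPf Sf subset_rfl hSf.1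
  have hP₁' := hP₁ S₁ subset_rfl hS₁.1
  -- the thin sets of `X₁`
  have hA₁ : IsThinSet (Cm (p + d)) (⋃₀ {D | Δ₁ D ≠ 0}) :=
    H64.Thin.isThinSet_sUnion hΔ₁.1 fun D hD => hΔ₁.2.1 D hD
  have hA : IsThinSet (Cm (p + d)) (⋃₀ {D | Δ D ≠ 0}) :=
    H64.Thin.isThinSet_sUnion hΔ.1 fun D hD => hΔ.2.1 D hD
  have hNs := H308.Bir.small_of_small2 (exc (p + d) X X₁ u hu)
  obtain ⟨L, hL, hLsub⟩ := hNs.2
  have hexu : ∃ x, Function.Surjective (mfderiv 𝓘(ℂ, Cm (p + d)) 𝓘(ℂ, Cm (p + d)) u x) := by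
    obtain ⟨x, hx⟩ := hMu.ndense.nonempty
    obtain ⟨z, rfl⟩ := hMu.surj x
    exact ⟨z, (hMu.exc z hx).2⟩
  obtain ⟨H', hH', hgenp⟩ := genpos_n rfl f₁ h₁.hol S₁ hP₁'
    (fun k => ⋃₀ {D | Δ₁ D ≠ 0} ∪ (u ⁻¹' (⋃₀ {D | Δ D ≠ 0}) ∪ u ⁻¹' (L k))) fun k =>
      H64.Thin.IsThinSet.union hA₁ (H64.Thin.IsThinSet.union (thin_pre hu' hexu hA)
        (thin_pre hu' hexu (hL k)))
  obtain ⟨H₃, hH₃, hsub₃⟩ := img p Y Y₁ v (fun k => H₁ k ∪ (H' k ∪ K₁ k)) hv fun k =>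
    H64.Thin.IsThinSet.union (hH₁ k) (H64.Thin.IsThinSet.union (hH' k) (hK₁ k))
  refine ⟨fun k => H₃ k ∪ Kf k, fun k => H64.Thin.IsThinSet.union (hH₃ k) (hKf k),
    fun y hy F _ _ i hi hinj => ?_⟩
  have hyS : y ∉ Sf := by
    intro h1
    obtain ⟨k, hk⟩ := mem_iUnion.1 (hsubf h1)
    exact hy k (Or.inr hk)
  have hyv : y ∉ v '' (excSet (Cm p) v ∪ ⋃ k, (H₁ k ∪ (H' k ∪ K₁ k))) := by
    intro h1
    obtain ⟨k, hk⟩ := mem_iUnion.1 (hsub₃ h1)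
    exact hy k (Or.inl hk)
  set y₁ : Y₁ := H308.Bir.inv hMv y with hy₁
  have hvy : v y₁ = y := H308.Bir.u_inv hMv y
  have hyN : v y₁ ∉ v '' excSet (Cm p) v := by
    rw [hvy]
    exact fun h1 => hyv (image_mono subset_union_left h1)
  have hpre : ∀ z, v z = y → z = y₁ := fun z hz => (hMv.inj _ _ (hvy.trans hz.symm) hyN).symm
  have hy₁N : ∀ k, y₁ ∉ H₁ k ∪ (H' k ∪ K₁ k) := fun k hk =>
    hyv ⟨y₁, Or.inr (mem_iUnion.2 ⟨k, hk⟩), hvy⟩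
  have hy₁S : y₁ ∉ S₁ := by
    intro h1
    obtain ⟨k, hk⟩ := mem_iUnion.1 (hsub₁ h1)
    exact hy₁N k (Or.inr (Or.inr hk))
  have hdetv : (dM (Cm p) (Cm p) v y₁).det ≠ 0 := H308.Bir.det_ne_of_bij (hMv.exc y₁ hyN)
  have : CompactSpace F := hi.compact
  have : ConnectedSpace F := hi.connected
  have : Nonempty F := hi.connected.toNonempty
  have : IsManifold 𝓘(ℂ, Cm d) ω F := hi.manifold
  have hn : Module.finrank ℂ (Cm (p + d)) =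
      Module.finrank ℂ (Cm p) + Module.finrank ℂ (Cm d) := by
    simp only [Module.finrank_fin_fun]
  have hfsub : ∀ x, f x = y → Function.Surjective
      (mfderiv 𝓘(ℂ, Cm (p + d)) 𝓘(ℂ, Cm p) f x) := fun x hx =>
    hPf'.submersive x (by rw [hx]; exact hyS)
  have hfsub₁ : ∀ x, f₁ x = y₁ → Function.Surjective
      (mfderiv 𝓘(ℂ, Cm (p + d)) 𝓘(ℂ, Cm p) f₁ x) := fun x hx =>
    hP₁'.submersive x (by rw [hx]; exact hy₁S)
  have hsur : ∀ x, f x = y → ∃ t, i t = x := fun x hx =>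
    surj_fib hn h.hol hi.hol hfsub hi.immersion hi.fibre (h.fibres y).isPreconnected hx
  -- the fibre of `f₁`
  obtain ⟨cs, hman, hval, hvimm⟩ := exists_level (E₀ := Cm d) hn h₁.hol hfsub₁
  have hcomp : CompactSpace (f₁ ⁻¹' {y₁}) :=
    isCompact_iff_compactSpace.1 (isClosed_singleton.preimage h₁.hol.continuous).isCompact
  have hconn : ConnectedSpace (f₁ ⁻¹' {y₁}) := isConnected_iff_connectedSpace.1 (h₁.fibres y₁)
  have hfib₁ : H511.Surf.IsFibre (Cm (p + d)) (Cm d) f₁ y₁ (Subtype.val : f₁ ⁻¹' {y₁} → X₁) :=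
    ⟨hcomp, hconn, hman, hval, hvimm, fun t => t.2⟩
  have huval : ContMDiff 𝓘(ℂ, Cm d) 𝓘(ℂ, Cm (p + d)) ω
      (fun s : f₁ ⁻¹' {y₁} => u s.1) := hu'.comp hval
  obtain ⟨ν, hiν, hν⟩ := exists_map hn h.hol hi.hol hfsub hi.immersion hi.fibre hinj hsur huval
    (fun s => by
      have h4 : f₁ s.1 = y₁ := s.2
      show f (u s.1) = y
      rw [hcomm, h4, hvy])
  -- general points
  have hpos : ∀ W : Set (f₁ ⁻¹' {y₁}), IsOpen W → W.Nonempty → ∃ s ∈ W,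
      ∀ k, s.1 ∉ ⋃₀ {D | Δ₁ D ≠ 0} ∪ (u ⁻¹' (⋃₀ {D | Δ D ≠ 0}) ∪ u ⁻¹' (L k)) := by
    rintro W hW ⟨s₀, hs₀⟩
    obtain ⟨U, hU, rfl⟩ := isOpen_induced_iff.1 hW
    obtain ⟨z, hzU, hz, hzk⟩ := hgenp y₁ hy₁S (fun k hk => hy₁N k (Or.inr (Or.inl hk))) U hU s₀.1
      hs₀ s₀.2
    exact ⟨⟨z, hz⟩, hzU, hzk⟩
  refine ⟨y₁, f₁ ⁻¹' {y₁}, inferInstance, inferInstance, cs, Subtype.val,
    fun k hk => hy₁N k (Or.inl hk), hfib₁, Subtype.val_injective, ?_⟩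
  obtain ⟨Jac, hJ0, hJ, -⟩ := exists_Jac h.hol hi.hol hi.fibre (fun t => hfsub _ (hi.fibre t))
    hi.immersion
  obtain ⟨Jac₁, hJ0₁, hJ₁, -⟩ := exists_Jac (y := y₁) h₁.hol hval
    (fun t : f₁ ⁻¹' {y₁} => t.2) (fun t => hfsub₁ _ t.2) hvimm
  refine kodR_pull (F₁ := f₁ ⁻¹' {y₁}) hgen h.hol h₁.hol hu' hv' hi.hol hval hν hcomm hiν hi.fibre
    (fun s => s.2) (fun t => hfsub _ (hi.fibre t)) (fun s => hfsub₁ _ s.2) hi.immersion hvimm hinj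
    hdetv hΔ hΔ₁ hmor ?_ ?_ ?_
  · -- density in `X₁`
    refine (H64.Thin.IsThinSet.dense_compl (thin_pre hu' hexu hA)).mono ?_
    rintro z hz ⟨D, hD, hzD⟩
    exact hz ⟨D, hD, hzD⟩
  · rw [dense_iff_inter_open]
    intro W hW hWne
    obtain ⟨s, hsW, hsk⟩ := hpos W hW hWne
    refine ⟨s, hsW, ?_⟩
    rintro ⟨D, hD, hzD⟩
    exact hsk 0 (Or.inr (Or.inl ⟨D, hD, hzD⟩))
  · intro V hV hVne
    obtain ⟨t, ht⟩ := hVne
    obtain ⟨z₀, hz₀⟩ := hMu.surj (i t)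
    have hz₀f : f₁ z₀ = y₁ := hpre _ (by rw [← hcomm, hz₀, hi.fibre])
    have hνt : ν ⟨z₀, hz₀f⟩ = t := hinj ((hiν ⟨z₀, hz₀f⟩).trans hz₀)
    obtain ⟨s, hsW, hsk⟩ := hpos (ν ⁻¹' V) (hV.preimage hν.continuous)
      ⟨⟨z₀, hz₀f⟩, by show ν ⟨z₀, hz₀f⟩ ∈ V; rw [hνt]; exact ht⟩
    refine ⟨s, hsW, ?_, fun D hD hzD => hsk 0 (Or.inr (Or.inl ⟨D, hD, hzD⟩)),
      fun D hD hzD => hsk 0 (Or.inl ⟨D, hD, hzD⟩)⟩
    have h1 : u s.1 ∉ u '' excSet (Cm (p + d)) u := by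
      intro h2
      obtain ⟨k, hk⟩ := mem_iUnion.1 (hLsub h2)
      exact hsk k (Or.inr (Or.inr hk))
    have h3 : (dM (Cm (p + d)) (Cm (p + d)) u s.1).det ≠ 0 :=
      H308.Bir.det_ne_of_bij (hMu.exc s.1 h1)
    have h4 := det_rel (F₁ := f₁ ⁻¹' {y₁}) h.hol h₁.hol hu' hv' hi.hol hval hν hcomm hiν
      (fun s => s.2) (fun s => hfsub₁ _ s.2) hJ hJ₁ s
    intro h0
    rw [h0, mul_zero] at h4
    exact mul_ne_zero h3 (hJ0₁ s) h4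

end Vale.Agent.P281.H364.MM
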