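import Vale.Agent.P281.H364.MM.Down2
import Vale.Agent.P281.H364.MM.Main

/-!
# P281, project T-MM (helper364): the fibres of a model, second inequality
-/

open scoped Manifold ContDiff Topology
open Set Filter Metric Vale.Agent.P281 Vale.Agent.P281.H713
open Vale.Agent.P281.H64 (Cm IsProperFibration)
open Vale.Agent.P281.H64.Gen (CritStmt ExcStmt IsSmallSet excSet HartogsStmt PushStmt IsSmall2)
open Vale.Agent.P281.H64.Thin (IsThinSet)
open Vale.Agent.P281.H511.Surf (IsFibration)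
open Vale.Agent.P281.H740 (eqF exists_retr mfderiv_chart_self genpos_n thin_pre surj_fib exists_level)

set_option linter.all false

noncomputable section

namespace Vale.Agent.P281.H364.MM

open Vale.Agent.P281.H713.TZ

theorem bij_of_det {d : ℕ} {T : Cm d →L[ℂ] Cm d} (hT : T.det ≠ 0) : Function.Bijective T := by
  have h1 := SA.isUnit_of_det_ne hT
  have h2 : T * Ring.inverse T = 1 := Ring.mul_inverse_cancel _ h1
  have h3 : Ring.inverse T * T = 1 := Ring.inverse_mul_cancel _ h1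
  refine ⟨fun a b hab => ?_, fun w => ⟨Ring.inverse T w, congrArg (fun S : Cm d →L[ℂ] Cm d => S w) h2⟩⟩
  have h4 : ∀ w, Ring.inverse T (T w) = w := fun w =>
    congrArg (fun S : Cm d →L[ℂ] Cm d => S w) h3
  rw [← h4 a, ← h4 b, hab]

/-- **`κ(F₁, K + Δ₁|F₁) ≤ κ(F, K + Δ|F)`** for the very general fibres `F₁` of the model `f₁`. -/
theorem fibDown_of (exc : ExcStmt) (crit : CritStmt) (gen : H64.TK.GenNStmt) (har : HartogsStmt)
    (push : PushStmt) {p d : ℕ} {X Y X₁ Y₁ : Type} [TopologicalSpace X]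
    [ChartedSpace (Cm (p + d)) X] [TopologicalSpace Y] [ChartedSpace (Cm p) Y]
    [TopologicalSpace X₁] [ChartedSpace (Cm (p + d)) X₁] [TopologicalSpace Y₁]
    [ChartedSpace (Cm p) Y₁] {f : X → Y} {Δ : Set X → ℝ} {f₁ : X₁ → Y₁} {Δ₁ : Set X₁ → ℝ}
    (h : IsFibration (Cm (p + d)) (Cm p) f Δ) (h₁ : IsFibration (Cm (p + d)) (Cm p) f₁ Δ₁)
    (hs : TZ.S.IsStep (Cm (p + d)) (Cm p) f₁ Δ₁ f Δ) {H : ℕ → Set Y}
    (hH : ∀ k, IsThinSet (Cm p) (H k)) :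
    ∃ H₁ : ℕ → Set Y₁, (∀ k, IsThinSet (Cm p) (H₁ k)) ∧ ∀ y₁, (∀ k, y₁ ∉ H₁ k) →
      ∀ (F₁ : Type) [TopologicalSpace F₁] [ChartedSpace (Cm d) F₁] (i₁ : F₁ → X₁),
        H511.Surf.IsFibre (Cm (p + d)) (Cm d) f₁ y₁ i₁ → Function.Injective i₁ →
        ∃ (y : Y) (F : Type) (_ : TopologicalSpace F) (_ : T2Space F)
          (_ : ChartedSpace (Cm d) F) (i : F → X), (∀ k, y ∉ H k) ∧
          H511.Surf.IsFibre (Cm (p + d)) (Cm d) f y i ∧ Function.Injective i ∧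
          TZ.S.kodR (Cm (p + d)) (Cm d) i₁ Δ₁ ≤ TZ.S.kodR (Cm (p + d)) (Cm d) i Δ := by
  have : T2Space X := h.hausdorff.1
  have : T2Space Y := h.hausdorff.2
  have : T2Space X₁ := h₁.hausdorff.1
  have : T2Space Y₁ := h₁.hausdorff.2
  have : CompactSpace X := h.compact
  have : CompactSpace X₁ := h₁.compact
  have : ConnectedSpace X₁ := h₁.connected
  have : ConnectedSpace X := h.connected
  have : Nonempty X := h.connected.toNonempty
  have : IsManifold 𝓘(ℂ, Cm (p + d)) ω X := h.manifold.1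
  have : IsManifold 𝓘(ℂ, Cm p) ω Y := h.manifold.2
  have : IsManifold 𝓘(ℂ, Cm (p + d)) ω X₁ := h₁.manifold.1
  have : IsManifold 𝓘(ℂ, Cm p) ω Y₁ := h₁.manifold.2
  have hsurf : Function.Surjective f := fun y => (h.fibres y).nonempty
  have hsurf₁ : Function.Surjective f₁ := fun y => (h₁.fibres y).nonempty
  have : CompactSpace Y := hsurf.compactSpace h.hol.continuous
  have : CompactSpace Y₁ := hsurf₁.compactSpace h₁.hol.continuous
  have : ConnectedSpace Y₁ := hsurf₁.connectedSpace h₁.hol.continuous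
  have : ConnectedSpace Y := hsurf.connectedSpace h.hol.continuous
  obtain ⟨u, v, hu, hv, hcomm, hf, hf₁, hΔ, hΔ₁, hpush, hmor⟩ := hs
  have hMu := H349.NF.mod_modif exc hu
  have hMv := H349.NF.mod_modif exc hv
  have hu' : ContMDiff 𝓘(ℂ, Cm (p + d)) 𝓘(ℂ, Cm (p + d)) ω u := hu.2.1
  have hv' : ContMDiff 𝓘(ℂ, Cm p) 𝓘(ℂ, Cm p) ω v := hv.2.1
  obtain ⟨Sf, hSf, hPf⟩ := crit (p + d) p X Y f h.hol h.fibres
  obtain ⟨S₁, hS₁, hP₁⟩ := crit (p + d) p X₁ Y₁ f₁ h₁.hol h₁.fibres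
  obtain ⟨Kf, hKf, hsubf⟩ := hSf.2
  obtain ⟨K₁, hK₁, hsub₁⟩ := hS₁.2
  have hPf' := hPf Sf subset_rfl hSf.1
  have hP₁' := hP₁ S₁ subset_rfl hS₁.1
  have hA : IsThinSet (Cm (p + d)) (⋃₀ {D | Δ D ≠ 0}) :=
    H64.Thin.isThinSet_sUnion hΔ.1 fun D hD => hΔ.2.1 D hD
  have hN2 : IsSmall2 (Cm (p + d)) (u '' excSet (Cm (p + d)) u) := exc (p + d) X X₁ u hu
  have hNs := H308.Bir.small_of_small2 hN2
  obtain ⟨L, hL, hLsub⟩ := hNs.2
  have hNv := H308.Bir.small_of_small2 (exc p Y Y₁ v hv)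
  obtain ⟨Lv, hLv, hLvsub⟩ := hNv.2
  have hexu : ∃ x, Function.Surjective (mfderiv 𝓘(ℂ, Cm (p + d)) 𝓘(ℂ, Cm (p + d)) u x) := by
    obtain ⟨x, hx⟩ := hMu.ndense.nonempty
    obtain ⟨z, rfl⟩ := hMu.surj x
    exact ⟨z, (hMu.exc z hx).2⟩
  have hexv : ∃ x, Function.Surjective (mfderiv 𝓘(ℂ, Cm p) 𝓘(ℂ, Cm p) v x) := by
    obtain ⟨x, hx⟩ := hMv.ndense.nonempty
    obtain ⟨z, rfl⟩ := hMv.surj x
    exact ⟨z, (hMv.exc z hx).2⟩
  obtain ⟨Hn, hHn, hgenN⟩ := gen p d X Y f _ h.hol hN2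
  obtain ⟨H', hH', hgenp⟩ := genpos_n rfl f h.hol Sf hPf' (fun _ => ⋃₀ {D | Δ D ≠ 0}) fun _ => hA
  obtain ⟨H'₁, hH'₁, hgenp₁⟩ := genpos_n rfl f₁ h₁.hol S₁ hP₁' (fun k => u ⁻¹' (L k)) fun k =>
    thin_pre hu' hexu (hL k)
  refine ⟨fun k => v ⁻¹' (H k ∪ (Hn k ∪ (Kf k ∪ (Lv k ∪ H' k)))) ∪ (K₁ k ∪ H'₁ k), fun k =>
    H64.Thin.IsThinSet.union (thin_pre hv' hexv (H64.Thin.IsThinSet.union (hH k)
      (H64.Thin.IsThinSet.union (hHn k) (H64.Thin.IsThinSet.union (hKf k)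
        (H64.Thin.IsThinSet.union (hLv k) (hH' k))))))
      (H64.Thin.IsThinSet.union (hK₁ k) (hH'₁ k)), fun y₁ hy₁ F₁ _ _ i₁ hi hinj => ?_⟩
  set y : Y := v y₁ with hy
  have hyS : y ∉ Sf := by
    intro h1
    obtain ⟨k, hk⟩ := mem_iUnion.1 (hsubf h1)
    exact hy₁ k (Or.inl (Or.inr (Or.inr (Or.inl hk))))
  have hyN : v y₁ ∉ v '' excSet (Cm p) v := by
    intro h1
    obtain ⟨k, hk⟩ := mem_iUnion.1 (hLvsub h1)
    exact hy₁ k (Or.inl (Or.inr (Or.inr (Or.inr (Or.inl hk)))))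
  have hpre : ∀ z, v z = y → z = y₁ := fun z hz => (hMv.inj y₁ z hz.symm hyN).symm
  have hy₁S : y₁ ∉ S₁ := by
    intro h1
    obtain ⟨k, hk⟩ := mem_iUnion.1 (hsub₁ h1)
    exact hy₁ k (Or.inr (Or.inl hk))
  have hdetv : (dM (Cm p) (Cm p) v y₁).det ≠ 0 := H308.Bir.det_ne_of_bij (hMv.exc y₁ hyN)
  have : CompactSpace F₁ := hi.compact
  have : ConnectedSpace F₁ := hi.connected
  have : Nonempty F₁ := hi.connected.toNonempty
  have : IsManifold 𝓘(ℂ, Cm d) ω F₁ := hi.manifold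
  have hn : Module.finrank ℂ (Cm (p + d)) =
      Module.finrank ℂ (Cm p) + Module.finrank ℂ (Cm d) := by
    simp only [Module.finrank_fin_fun]
  have hfsub : ∀ x, f x = y → Function.Surjective
      (mfderiv 𝓘(ℂ, Cm (p + d)) 𝓘(ℂ, Cm p) f x) := fun x hx =>
    hPf'.submersive x (by rw [hx]; exact hyS)
  have hfsub₁ : ∀ x, f₁ x = y₁ → Function.Surjective
      (mfderiv 𝓘(ℂ, Cm (p + d)) 𝓘(ℂ, Cm p) f₁ x) := fun x hx =>
    hP₁'.submersive x (by rw [hx]; exact hy₁S)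
  have hsur₁ : ∀ x, f₁ x = y₁ → ∃ t, i₁ t = x := fun x hx =>
    surj_fib hn h₁.hol hi.hol hfsub₁ hi.immersion hi.fibre (h₁.fibres y₁).isPreconnected hx
  -- the fibre of `f`
  obtain ⟨cs, hman, hval, hvimm⟩ := exists_level (E₀ := Cm d) hn h.hol hfsub
  have hcomp : CompactSpace (f ⁻¹' {y}) :=
    isCompact_iff_compactSpace.1 (isClosed_singleton.preimage h.hol.continuous).isCompact
  have hconn : ConnectedSpace (f ⁻¹' {y}) := isConnected_iff_connectedSpace.1 (h.fibres y)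
  have hfib : H511.Surf.IsFibre (Cm (p + d)) (Cm d) f y (Subtype.val : f ⁻¹' {y} → X) :=
    ⟨hcomp, hconn, hman, hval, hvimm, fun t => t.2⟩
  obtain ⟨ν, hiν, hν⟩ := exists_map hn h.hol hval hfsub hvimm (fun t : f ⁻¹' {y} => t.2)
    Subtype.val_injective (fun x hx => ⟨⟨x, hx⟩, rfl⟩) (hu'.comp hi.hol) (fun s => by
      show f (u (i₁ s)) = y
      rw [hcomm, hi.fibre])
  have hiν' : ∀ s, (Subtype.val : f ⁻¹' {y} → X) (ν s) = u (i₁ s) := hiν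
  have hA2 := hgenN y (fun k hk => hy₁ k (Or.inl (Or.inr (Or.inl hk)))) (f ⁻¹' {y}) Subtype.val hfib
  obtain ⟨Jac, hJ0, hJ, -⟩ := exists_Jac h.hol hval (fun t : f ⁻¹' {y} => t.2)
    (fun t => hfsub _ t.2) hvimm
  obtain ⟨Jac₁, hJ0₁, hJ₁, -⟩ := exists_Jac (y := y₁) h₁.hol hi.hol hi.fibre
    (fun t => hfsub₁ _ (hi.fibre t)) hi.immersion
  have hexc : ∀ s, ν s ∉ (Subtype.val : f ⁻¹' {y} → X) ⁻¹' (u '' excSet (Cm (p + d)) u) →
      Function.Bijective (dM (Cm d) (Cm d) ν s) := by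
    intro s hsA
    have h1 : u (i₁ s) ∉ u '' excSet (Cm (p + d)) u := by
      rw [← hiν' s]
      exact hsA
    have h3 : (dM (Cm (p + d)) (Cm (p + d)) u (i₁ s)).det ≠ 0 :=
      H308.Bir.det_ne_of_bij (hMu.exc _ h1)
    have h4 := det_rel (F := f ⁻¹' {y}) h.hol h₁.hol hu' hv' hval hi.hol hν hcomm hiν'
      hi.fibre (fun s => hfsub₁ _ (hi.fibre s)) hJ hJ₁ s
    refine bij_of_det fun h0 => ?_
    rw [h0, mul_zero] at h4
    exact mul_ne_zero h3 (hJ0₁ s) h4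
  have hce : Topology.IsClosedEmbedding i₁ := hi.hol.continuous.isClosedEmbedding hinj
  have hMν : H308.Bir.Mod (n := d) ν
      ((Subtype.val : f ⁻¹' {y} → X) ⁻¹' (u '' excSet (Cm (p + d)) u)) := by
    refine ⟨fun z => hν z, hν.continuous.isClosedMap, ?_, hA2.1,
      (H308.Bir.small_of_small2 hA2).dense_compl, hexc, ?_, ?_⟩
    · intro t
      obtain ⟨z₀, hz₀⟩ := hMu.surj t.1
      have h4 : f t.1 = y := t.2
      have hz₀f : f₁ z₀ = y₁ := hpre _ (by rw [← hcomm, hz₀, h4])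
      obtain ⟨s, hs⟩ := hsur₁ z₀ hz₀f
      exact ⟨s, Subtype.ext (by rw [hiν' s, hs, hz₀])⟩
    · intro z z' hzz hzA
      apply hinj
      refine hMu.inj _ _ ?_ ?_
      · rw [← hiν' z, ← hiν' z', hzz]
      · rw [← hiν' z]
        exact hzA
    · intro G hG hGd
      rw [dense_iff_inter_open]
      rintro W hW ⟨s₀, hs₀⟩
      obtain ⟨U, hU, rfl⟩ := hce.isInducing.isOpen_iff.1 hW
      obtain ⟨z, hzU, hz, hzk⟩ := hgenp₁ y₁ hy₁S (fun k hk => hy₁ k (Or.inr (Or.inr hk))) U hU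
        (i₁ s₀) hs₀ (hi.fibre s₀)
      obtain ⟨s, rfl⟩ := hsur₁ z hz
      have hsA : ν s ∉ (Subtype.val : f ⁻¹' {y} → X) ⁻¹' (u '' excSet (Cm (p + d)) u) := by
        intro h1
        have h2 : u (i₁ s) ∈ u '' excSet (Cm (p + d)) u := by
          rw [← hiν' s]
          exact h1
        obtain ⟨k, hk⟩ := mem_iUnion.1 (hLsub h2)
        exact hzk k hk
      have h3 : ν '' (i₁ ⁻¹' U) ∈ 𝓝 (ν s) := H308.Bir.nhds_le_map (hν s) (hexc s hsA)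
        (image_mem_map (hW.mem_nhds hzU))
      obtain ⟨_, hwG, w, hw, rfl⟩ := hGd.inter_nhds_nonempty h3
      exact ⟨w, hw, hwG⟩
  refine ⟨y, f ⁻¹' {y}, inferInstance, inferInstance, cs, Subtype.val,
    fun k hk => hy₁ k (Or.inl (Or.inl hk)), hfib, Subtype.val_injective, ?_⟩
  refine kodR_push har hA2 hMu hMν (fun t => Iff.rfl) hval hi.hol hiν' hΔ hΔ₁ (fun D hD => ?_) ?_
  · have hD' : J.IsPrime (Cm (p + d)) D := hΔ₁.2.1 D hD
    by_cases hex : D ⊆ excSet (Cm (p + d)) u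
    · exact Or.inl fun w hw => mem_image_of_mem u (hex hw)
    · have hP := push (p + d) X X₁ u D hu hD' hex
      exact Or.inr ⟨hP.2.1, hpush D hD' hP⟩
  · have h1 : Dense {t : f ⁻¹' {y} | ∀ D, Δ D ≠ 0 → t.1 ∉ D} := by
      rw [dense_iff_inter_open]
      rintro W hW ⟨t₀, ht₀⟩
      obtain ⟨U, hU, rfl⟩ := isOpen_induced_iff.1 hW
      obtain ⟨z, hzU, hz, hzk⟩ := hgenp y hyS
        (fun k hk => hy₁ k (Or.inl (Or.inr (Or.inr (Or.inr (Or.inr hk)))))) U hU t₀.1 ht₀ t₀.2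
      exact ⟨⟨z, hz⟩, hzU, fun D hD hzD => hzk 0 ⟨D, hD, hzD⟩⟩
    refine (hMν.ndense.inter_of_isOpen_left h1 hMν.nclosed.isOpen_compl).mono ?_
    rintro t ⟨h2, h3⟩
    exact ⟨h2, h3⟩

end Vale.Agent.P281.H364.MM
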