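import Vale.Agent.P281.H364.MM.PullF

/-!
# P281, project T-MM (helper364): pull-back of pluricanonical sections of a fibre
-/

open scoped Manifold ContDiff Topology
open Set Filter Metric Vale.Agent.P281 Vale.Agent.P281.H713
open Vale.Agent.P281.H64 (Cm)
open Vale.Agent.P281.H740 (eqF exists_retr mfderiv_chart_self)
open Vale.Agent.P281.H737.TW (Jd Jd_left Jd_right exists_jac exists_unit)

set_option linter.all false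

noncomputable section

namespace Vale.Agent.P281.H364.MM

open Vale.Agent.P281.H713.TZ

theorem supp_closed {n : ℕ} {X : Type} [TopologicalSpace X] [ChartedSpace (Cm n) X]
    {Δ : Set X → ℝ} (hΔ : J.IsSNC (Cm n) Δ) {m : ℕ} {k : Set X → ℕ}
    (hk : ∀ D, (k D : ℝ) = m * Δ D) :
    {D | k D ≠ 0}.Finite ∧ (∀ D, k D ≠ 0 → J.IsPrime (Cm n) D) ∧
      IsClosed {x : X | ∃ D, k D ≠ 0 ∧ x ∈ D} := by
  have h0 : ∀ D, k D ≠ 0 → Δ D ≠ 0 := by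
    intro D hD h0
    have h4 := hk D
    rw [h0, mul_zero] at h4
    exact hD (by exact_mod_cast h4)
  have hfin : {D | k D ≠ 0}.Finite := hΔ.1.subset fun D hD => h0 D hD
  have hpr : ∀ D, k D ≠ 0 → J.IsPrime (Cm n) D := fun D hD => hΔ.2.1 D (h0 D hD)
  refine ⟨hfin, hpr, ?_⟩
  have h1 : {x : X | ∃ D, k D ≠ 0 ∧ x ∈ D} = ⋃ D ∈ {D | k D ≠ 0}, D := by
    ext x
    simp
  rw [h1]
  exact hfin.isClosed_biUnion fun D hD => (hpr D hD).1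

variable {p d : ℕ} {X Y X₁ Y₁ F F₁ : Type}
  [TopologicalSpace X] [ChartedSpace (Cm (p + d)) X] [IsManifold 𝓘(ℂ, Cm (p + d)) ω X]
  [TopologicalSpace Y] [ChartedSpace (Cm p) Y] [IsManifold 𝓘(ℂ, Cm p) ω Y]
  [TopologicalSpace X₁] [ChartedSpace (Cm (p + d)) X₁] [IsManifold 𝓘(ℂ, Cm (p + d)) ω X₁]
  [TopologicalSpace Y₁] [ChartedSpace (Cm p) Y₁] [IsManifold 𝓘(ℂ, Cm p) ω Y₁]
  [TopologicalSpace F] [ChartedSpace (Cm d) F] [IsManifold 𝓘(ℂ, Cm d) ω F]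
  [TopologicalSpace F₁] [ChartedSpace (Cm d) F₁] [IsManifold 𝓘(ℂ, Cm d) ω F₁]
  {f : X → Y} {f₁ : X₁ → Y₁} {u : X₁ → X} {v : Y₁ → Y} {i : F → X} {i₁ : F₁ → X₁}
  {ν : F₁ → F} {y : Y} {y₁ : Y₁}

/-- the determinants of `u` and `ν` -/
theorem det_rel (hf : ContMDiff 𝓘(ℂ, Cm (p + d)) 𝓘(ℂ, Cm p) ω f)
    (hf₁ : ContMDiff 𝓘(ℂ, Cm (p + d)) 𝓘(ℂ, Cm p) ω f₁)
    (hu : ContMDiff 𝓘(ℂ, Cm (p + d)) 𝓘(ℂ, Cm (p + d)) ω u)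
    (hv : ContMDiff 𝓘(ℂ, Cm p) 𝓘(ℂ, Cm p) ω v)
    (hi : ContMDiff 𝓘(ℂ, Cm d) 𝓘(ℂ, Cm (p + d)) ω i)
    (hi₁ : ContMDiff 𝓘(ℂ, Cm d) 𝓘(ℂ, Cm (p + d)) ω i₁)
    (hν : ContMDiff 𝓘(ℂ, Cm d) 𝓘(ℂ, Cm d) ω ν)
    (hcomm : ∀ x, f (u x) = v (f₁ x)) (hiν : ∀ s, i (ν s) = u (i₁ s))
    (hfi₁ : ∀ s, f₁ (i₁ s) = y₁)
    (hsub₁ : ∀ s, Function.Surjective (mfderiv 𝓘(ℂ, Cm (p + d)) 𝓘(ℂ, Cm p) f₁ (i₁ s)))
    {Jac : F → ℂ} {Jac₁ : F₁ → ℂ}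
    (hJ : ∀ t (R : Cm p →L[ℂ] Cm (p + d)),
      Jd R (mfderiv 𝓘(ℂ, Cm d) 𝓘(ℂ, Cm (p + d)) i t) = Jac t * ContinuousLinearMap.det
        ((mfderiv 𝓘(ℂ, Cm (p + d)) 𝓘(ℂ, Cm p) f (i t) : Cm (p + d) →L[ℂ] Cm p).comp R))
    (hJ₁ : ∀ s (R : Cm p →L[ℂ] Cm (p + d)),
      Jd R (mfderiv 𝓘(ℂ, Cm d) 𝓘(ℂ, Cm (p + d)) i₁ s) = Jac₁ s * ContinuousLinearMap.det
        ((mfderiv 𝓘(ℂ, Cm (p + d)) 𝓘(ℂ, Cm p) f₁ (i₁ s) : Cm (p + d) →L[ℂ] Cm p).comp R))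
    (s : F₁) :
    (dM (Cm (p + d)) (Cm (p + d)) u (i₁ s)).det * Jac₁ s =
      Jac (ν s) * (dM (Cm p) (Cm p) v y₁).det * (dM (Cm d) (Cm d) ν s).det := by
  refine key_det (P₁ := mfderiv 𝓘(ℂ, Cm (p + d)) 𝓘(ℂ, Cm p) f₁ (i₁ s))
    (P := mfderiv 𝓘(ℂ, Cm (p + d)) 𝓘(ℂ, Cm p) f (i (ν s)))
    (T₁ := mfderiv 𝓘(ℂ, Cm d) 𝓘(ℂ, Cm (p + d)) i₁ s)
    (T := mfderiv 𝓘(ℂ, Cm d) 𝓘(ℂ, Cm (p + d)) i (ν s)) (hsub₁ s) (hJ₁ s) (hJ (ν s)) ?_ ?_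
  · -- `u ∘ i₁ = i ∘ ν`
    refine ContinuousLinearMap.ext fun ξ => ?_
    have e1 := mfderiv_comp_apply s (g := u) (f := i₁) ((hu (i₁ s)).mdifferentiableAt (by simp))
      ((hi₁ s).mdifferentiableAt (by simp)) ξ
    have e2 := mfderiv_comp_apply s (g := i) (f := ν) ((hi (ν s)).mdifferentiableAt (by simp))
      ((hν s).mdifferentiableAt (by simp)) ξ
    have e3 : u ∘ i₁ = i ∘ ν := funext fun s => (hiν s).symm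
    rw [e3] at e1
    exact e1.symm.trans e2
  · refine ContinuousLinearMap.ext fun ξ => ?_
    rw [hiν s]
    have e1 := mfderiv_comp_apply (i₁ s) (g := f) (f := u)
      ((hf (u (i₁ s))).mdifferentiableAt (by simp)) ((hu (i₁ s)).mdifferentiableAt (by simp)) ξ
    have e2 := mfderiv_comp_apply (i₁ s) (g := v) (f := f₁)
      ((hv (f₁ (i₁ s))).mdifferentiableAt (by simp)) ((hf₁ (i₁ s)).mdifferentiableAt (by simp)) ξ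
    have e3 : f ∘ u = v ∘ f₁ := funext hcomm
    rw [e3] at e1
    have e4 : (mfderiv 𝓘(ℂ, Cm p) 𝓘(ℂ, Cm p) v (f₁ (i₁ s)) : Cm p →L[ℂ] Cm p) =
        mfderiv 𝓘(ℂ, Cm p) 𝓘(ℂ, Cm p) v y₁ := by rw [hfi₁ s]
    have e5 := e1.symm.trans e2
    refine e5.trans ?_
    exact congrArg (fun T : Cm p →L[ℂ] Cm p =>
      T (mfderiv 𝓘(ℂ, Cm (p + d)) 𝓘(ℂ, Cm p) f₁ (i₁ s) ξ)) e4

end Vale.Agent.P281.H364.MM
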