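import Vale.Agent.P281.H364.MM.Fib

/-!
# P281, project T-MM (helper364): pull-back of pluricanonical sections of a fibre
-/

open scoped Manifold ContDiff Topology
open Set Filter Metric Vale.Agent.P281 Vale.Agent.P281.H713
open Vale.Agent.P281.H64 (Cm)
open Vale.Agent.P281.H740 (eqF exists_retr mfderiv_chart_self)
open Vale.Agent.P281.H737.TW (Jd Jd_left Jd_right exists_jac exists_unit)

set_option linter.all false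

noncomputable section

namespace Vale.Agent.P281.H364.MM

open Vale.Agent.P281.H713.TZ

variable {p d : ℕ} {X Y X₁ Y₁ F F₁ : Type}
  [TopologicalSpace X] [ChartedSpace (Cm (p + d)) X] [IsManifold 𝓘(ℂ, Cm (p + d)) ω X]
  [TopologicalSpace Y] [ChartedSpace (Cm p) Y] [IsManifold 𝓘(ℂ, Cm p) ω Y]
  [TopologicalSpace X₁] [ChartedSpace (Cm (p + d)) X₁] [IsManifold 𝓘(ℂ, Cm (p + d)) ω X₁]
  [TopologicalSpace Y₁] [ChartedSpace (Cm p) Y₁] [IsManifold 𝓘(ℂ, Cm p) ω Y₁]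
  [TopologicalSpace F] [ChartedSpace (Cm d) F] [IsManifold 𝓘(ℂ, Cm d) ω F]
  [TopologicalSpace F₁] [ChartedSpace (Cm d) F₁] [IsManifold 𝓘(ℂ, Cm d) ω F₁]
  {f : X → Y} {f₁ : X₁ → Y₁} {u : X₁ → X} {v : Y₁ → Y} {i : F → X} {i₁ : F₁ → X₁}
  {ν : F₁ → F} {y : Y} {y₁ : Y₁}

/-- a section on `F` is, near `t₀`, the restriction of a section on `X` -/
theorem ext_fib (hf : ContMDiff 𝓘(ℂ, Cm (p + d)) 𝓘(ℂ, Cm p) ω f)
    (hi : ContMDiff 𝓘(ℂ, Cm d) 𝓘(ℂ, Cm (p + d)) ω i) (hfi : ∀ t, f (i t) = y)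
    (hsub : ∀ t, Function.Surjective (mfderiv 𝓘(ℂ, Cm (p + d)) 𝓘(ℂ, Cm p) f (i t)))
    (himm : ∀ t, Function.Injective (mfderiv 𝓘(ℂ, Cm d) 𝓘(ℂ, Cm (p + d)) i t))
    (hinj : Function.Injective i) {Jac : F → ℂ}
    (hU : ∀ t₀, ∃ U : F → ℂ, HolV (Cm d) U t₀ ∧ U t₀ ≠ 0 ∧ ∀ᶠ t in 𝓝 t₀,
        jac (Cm (p + d)) (chartAt (Cm (p + d)) (i t₀)) (i t) * Jac t =
          U t * jac (Cm d) (chartAt (Cm d) t₀) t)
    {m : ℕ} {k : Set X → ℕ} {σ : F → ℂ} (hσ : J.IsSection (Cm d) (eqF (p + d) i) m k σ) (t₀ : F) :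
    ∃ σX : X → ℂ, (∀ x₀, x₀ = i t₀ → ∃ (T : Finset (Set X)) (g : Set X → X → ℂ) (a : X → ℂ),
      (∀ D, k D ≠ 0 → D ∈ T) ∧ (∀ D ∈ T, J.IsLocalEq (Cm (p + d)) D (g D) x₀) ∧
      J.HolAt (Cm (p + d)) a x₀ ∧ ∀ᶠ z in 𝓝 x₀, ∏ D ∈ T, g D z ^ k D ≠ 0 →
        σX z * ∏ D ∈ T, g D z ^ k D =
          a z * jac (Cm (p + d)) (chartAt (Cm (p + d)) x₀) z ^ m) ∧
      ∀ᶠ t in 𝓝 t₀, (∀ D, k D ≠ 0 → i t ∉ D) → σX (i t) * Jac t ^ m = σ t := by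
  classical
  obtain ⟨U, hUh, hU0, hUe⟩ := hU t₀
  obtain ⟨ρ, hρ, hρ0, hρf⟩ := exists_retr (E := Cm (p + d)) (E' := Cm p) (E₀ := Cm d)
    (by simp) hf hi (hsub t₀) (himm t₀) hfi
  obtain ⟨T, g, a, hT, hg, ha, hev⟩ := hσ t₀
  have hch : ∀ D, ∃ e : X → ℂ, D ∈ T → J.IsLocalEq (Cm (p + d)) D e (i t₀) ∧
      ∀ᶠ t in 𝓝 t₀, g D t = e (i t) := by
    intro D
    by_cases hD : D ∈ T
    · obtain ⟨e, he⟩ := hg D hD
      exact ⟨e, fun _ => he⟩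
    · exact ⟨fun _ => 0, fun h => absurd h hD⟩
  choose e he using hch
  set aX : X → ℂ := fun x => a (ρ x) / U (ρ x) ^ m with haXd
  have haX : HolV (Cm (p + d)) aX (i t₀) := by
    have h1 : HolV (Cm (p + d)) (fun x => a (ρ x)) (i t₀) := by
      refine HolV.comp (E' := Cm d) (h := a) (f := ρ) ?_ hρ
      rw [hρ0]; exact ha
    have h2 : HolV (Cm (p + d)) (fun x => U (ρ x)) (i t₀) := by
      refine HolV.comp (E' := Cm d) (h := U) (f := ρ) ?_ hρ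
      rw [hρ0]; exact hUh
    exact HolV.div h1 (h2.pow m) (by rw [hρ0]; exact pow_ne_zero _ hU0)
  refine ⟨fun x => aX x * jac (Cm (p + d)) (chartAt (Cm (p + d)) (i t₀)) x ^ m /
    ∏ D ∈ T, e D x ^ k D, ?_, ?_⟩
  · rintro _ rfl
    exact ⟨T, e, aX, hT, fun D hD => (he D hD).1, haX,
      Eventually.of_forall fun z hz => div_mul_cancel₀ _ hz⟩
  · have hic : Tendsto i (𝓝 t₀) (𝓝 (i t₀)) := hi.continuous.continuousAt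
    have hρi : ∀ᶠ t in 𝓝 t₀, ρ (i t) = t := by
      filter_upwards [hic.eventually hρf] with t ht
      exact hinj (ht (hfi t))
    have hge : ∀ᶠ t in 𝓝 t₀, ∀ D ∈ T, g D t = e D (i t) :=
      (Finset.eventually_all T).2 fun D hD => (he D hD).2
    have hgm : ∀ᶠ t in 𝓝 t₀, ∀ D ∈ T, eqF (p + d) i D t (g D) :=
      (Finset.eventually_all T).2 fun D hD => eqF_ev hi (hg D hD)
    have hUn : ∀ᶠ t in 𝓝 t₀, U t ≠ 0 := hUh.continuousAt.eventually_ne hU0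
    filter_upwards [hρi, hge, hgm, hUn, hUe, hev] with t h1 h2 h3 h4 h5 h6 hoff
    have h7 : ∏ D ∈ T, g D t ^ k D ≠ 0 := by
      refine Finset.prod_ne_zero_iff.2 fun D hD => ?_
      by_cases hk0 : k D = 0
      · simp [hk0]
      · exact pow_ne_zero _ fun h0 => hoff D hk0 ((h3 D hD).mem.2 h0)
    have h8 : σ t * ∏ D ∈ T, g D t ^ k D = a t * jac (Cm d) (chartAt (Cm d) t₀) t ^ m := h6 h7
    have h9 : ∏ D ∈ T, e D (i t) ^ k D = ∏ D ∈ T, g D t ^ k D :=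
      Finset.prod_congr rfl fun D hD => by rw [h2 D hD]
    have h10 : jac (Cm (p + d)) (chartAt (Cm (p + d)) (i t₀)) (i t) ^ m * Jac t ^ m =
        U t ^ m * jac (Cm d) (chartAt (Cm d) t₀) t ^ m := by
      rw [← mul_pow, h5, mul_pow]
    show a (ρ (i t)) / U (ρ (i t)) ^ m *
      jac (Cm (p + d)) (chartAt (Cm (p + d)) (i t₀)) (i t) ^ m /
      (∏ D ∈ T, e D (i t) ^ k D) * Jac t ^ m = σ t
    rw [h9, h1]
    have h11 : U t ^ m ≠ 0 := pow_ne_zero _ h4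
    rw [div_mul_eq_mul_div, div_eq_iff h7, h8, div_mul_eq_mul_div, div_mul_eq_mul_div,
      div_eq_iff h11]
    linear_combination a t * h10

/-- **the pull-back of a section of `m (K_F + Δ|F)` is, locally, a section of `m (K + Δ₁|F₁)`** -/
theorem pull_fib (hgen : GenPart) (hf : ContMDiff 𝓘(ℂ, Cm (p + d)) 𝓘(ℂ, Cm p) ω f)
    (hf₁ : ContMDiff 𝓘(ℂ, Cm (p + d)) 𝓘(ℂ, Cm p) ω f₁)
    (hu : ContMDiff 𝓘(ℂ, Cm (p + d)) 𝓘(ℂ, Cm (p + d)) ω u)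
    (hv : ContMDiff 𝓘(ℂ, Cm p) 𝓘(ℂ, Cm p) ω v)
    (hi : ContMDiff 𝓘(ℂ, Cm d) 𝓘(ℂ, Cm (p + d)) ω i)
    (hi₁ : ContMDiff 𝓘(ℂ, Cm d) 𝓘(ℂ, Cm (p + d)) ω i₁)
    (hν : ContMDiff 𝓘(ℂ, Cm d) 𝓘(ℂ, Cm d) ω ν)
    (hcomm : ∀ x, f (u x) = v (f₁ x)) (hiν : ∀ s, i (ν s) = u (i₁ s))
    (hfi : ∀ t, f (i t) = y) (hfi₁ : ∀ s, f₁ (i₁ s) = y₁)
    (hsub : ∀ t, Function.Surjective (mfderiv 𝓘(ℂ, Cm (p + d)) 𝓘(ℂ, Cm p) f (i t)))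
    (hsub₁ : ∀ s, Function.Surjective (mfderiv 𝓘(ℂ, Cm (p + d)) 𝓘(ℂ, Cm p) f₁ (i₁ s)))
    (himm : ∀ t, Function.Injective (mfderiv 𝓘(ℂ, Cm d) 𝓘(ℂ, Cm (p + d)) i t))
    (himm₁ : ∀ s, Function.Injective (mfderiv 𝓘(ℂ, Cm d) 𝓘(ℂ, Cm (p + d)) i₁ s))
    (hinj : Function.Injective i) (hB : (dM (Cm p) (Cm p) v y₁).det ≠ 0)
    {Δ : Set X → ℝ} {Δ₁ : Set X₁ → ℝ} (hΔ : J.IsSNC (Cm (p + d)) Δ)
    (hΔ₁ : J.IsSNC (Cm (p + d)) Δ₁) (hmor : S.OrbMor (Cm (p + d)) (Cm (p + d)) u Δ₁ Δ)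
    {m : ℕ} (hm : 0 < m) {k : Set X → ℕ} (hk : ∀ D, (k D : ℝ) = m * Δ D)
    {K : Set X₁ → ℕ} (hK : ∀ D, (K D : ℝ) = m * Δ₁ D)
    (hd : Dense {z | ¬ ∃ D, k D ≠ 0 ∧ u z ∈ D})
    {σ : F → ℂ} (hσ : J.IsSection (Cm d) (eqF (p + d) i) m k σ) (s₀ : F₁) :
    ∃ (T : Finset (Set X₁)) (g : Set X₁ → F₁ → ℂ) (Q : F₁ → ℂ), (∀ D, K D ≠ 0 → D ∈ T) ∧
      (∀ D ∈ T, eqF (p + d) i₁ D s₀ (g D)) ∧ HolV (Cm d) Q s₀ ∧
      ∀ᶠ s in 𝓝 s₀, s ∈ {s | ¬ ∃ D, k D ≠ 0 ∧ u (i₁ s) ∈ D} → ∏ D ∈ T, g D s ^ K D ≠ 0 →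
        σ (ν s) * (dM (Cm d) (Cm d) ν s).det ^ m * ∏ D ∈ T, g D s ^ K D =
          Q s * jac (Cm d) (chartAt (Cm d) s₀) s ^ m := by
  classical
  obtain ⟨Jac, hJ0, hJ, hU⟩ := exists_Jac hf hi hfi hsub himm
  obtain ⟨Jac₁, hJ0₁, hJ₁, hU₁⟩ := exists_Jac hf₁ hi₁ hfi₁ hsub₁ himm₁
  have hrel := det_rel hf hf₁ hu hv hi hi₁ hν hcomm hiν hfi₁ hsub₁ hJ hJ₁
  obtain ⟨U₁, hUh₁, hU0₁, hUe₁⟩ := hU₁ s₀
  obtain ⟨σX, hdata, hres⟩ := ext_fib hf hi hfi hsub himm hinj hU hσ (ν s₀)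
  obtain ⟨-, -, hScl⟩ := supp_closed hΔ hk
  obtain ⟨hfin₁, hpr₁, -⟩ := supp_closed hΔ₁ hK
  have hch : ∀ D, ∃ g : X₁ → ℂ, K D ≠ 0 → J.IsLocalEq (Cm (p + d)) D g (i₁ s₀) := by
    intro D
    by_cases hD : K D = 0
    · exact ⟨fun _ => 0, fun h => absurd hD h⟩
    · obtain ⟨g, hg⟩ := (hpr₁ D hD).2.1 (i₁ s₀)
      exact ⟨g, fun _ => hg⟩
  choose gT hgT using hch
  have hΔ01 : ∀ D, Δ D ≤ 1 := by
    intro D
    obtain ⟨q, hq, -, hq1⟩ := hΔ.2.2.1 D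
    rw [hq]
    exact_mod_cast hq1
  obtain ⟨Q, hQ, hQe⟩ := pull_X hgen (fun z => hu z) hΔ01 hΔ₁ hmor hΔ hScl hd hm hk
    (fun y => Iff.rfl) hK (hdata _ (hiν s₀).symm) (T := hfin₁.toFinset) (gT := gT)
    (fun D hD => hfin₁.mem_toFinset.2 hD) (fun D hD => hgT D (hfin₁.mem_toFinset.1 hD))
  have hic : Tendsto i₁ (𝓝 s₀) (𝓝 (i₁ s₀)) := hi₁.continuous.continuousAt
  refine ⟨hfin₁.toFinset, fun D s => gT D (i₁ s),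
    fun s => Q (i₁ s) * U₁ s ^ m / (dM (Cm p) (Cm p) v y₁).det ^ m,
    fun D hD => hfin₁.mem_toFinset.2 hD, fun D hD => ⟨gT D, hgT D (hfin₁.mem_toFinset.1 hD),
      Eventually.of_forall fun s => rfl⟩, ?_, ?_⟩
  · have h1 : HolV (Cm d) (fun s => Q (i₁ s)) s₀ := HolV.comp (E' := Cm (p + d)) hQ (hi₁ s₀)
    have h2 : HolV (Cm d) (fun _ : F₁ => (dM (Cm p) (Cm p) v y₁).det ^ m) s₀ := contMDiffAt_const
    exact HolV.div (h1.mul (hUh₁.pow m)) h2 (pow_ne_zero _ hB)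
  · filter_upwards [hic.eventually hQe, hUe₁,
      (hν.continuous.continuousAt (x := s₀)).eventually hres] with s h1 h2 h3 hs hne
    have h4 := h1 hs
    have h5 := h3 fun D hD hmem => hs ⟨D, hD, by rw [← hiν s]; exact hmem⟩
    have h6 := hrel s
    rw [hiν s] at h5
    rw [← h5]
    show σX (u (i₁ s)) * Jac (ν s) ^ m * (dM (Cm d) (Cm d) ν s).det ^ m *
      ∏ D ∈ hfin₁.toFinset, gT D (i₁ s) ^ K D =
      Q (i₁ s) * U₁ s ^ m / (dM (Cm p) (Cm p) v y₁).det ^ m *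
        jac (Cm d) (chartAt (Cm d) s₀) s ^ m
    rw [div_mul_eq_mul_div, eq_div_iff (pow_ne_zero _ hB)]
    calc σX (u (i₁ s)) * Jac (ν s) ^ m * (dM (Cm d) (Cm d) ν s).det ^ m *
          (∏ D ∈ hfin₁.toFinset, gT D (i₁ s) ^ K D) * (dM (Cm p) (Cm p) v y₁).det ^ m
        = σX (u (i₁ s)) * (Jac (ν s) * (dM (Cm p) (Cm p) v y₁).det *
            (dM (Cm d) (Cm d) ν s).det) ^ m * ∏ D ∈ hfin₁.toFinset, gT D (i₁ s) ^ K D := by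
          rw [mul_pow, mul_pow]
          ring
      _ = (σX (u (i₁ s)) * (dM (Cm (p + d)) (Cm (p + d)) u (i₁ s)).det ^ m *
            ∏ D ∈ hfin₁.toFinset, gT D (i₁ s) ^ K D) * Jac₁ s ^ m := by
          rw [← h6, mul_pow]
          ring
      _ = Q (i₁ s) * (jac (Cm (p + d)) (chartAt (Cm (p + d)) (i₁ s₀)) (i₁ s) *
            Jac₁ s) ^ m := by
          rw [h4, mul_pow]
          ring
      _ = Q (i₁ s) * U₁ s ^ m * jac (Cm d) (chartAt (Cm d) s₀) s ^ m := by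
          rw [h2, mul_pow]
          ring

end Vale.Agent.P281.H364.MM
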