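import Vale.Agent.P281.H364.MM.Main
import Vale.Agent.P281.H413.TZ.Gen
import Vale.Agent.P281.H737.Gen.Exc
import Vale.Agent.P281.H364.Gen.Crit
import Vale.Agent.P281.H150.Gen.Img
import Vale.Agent.P281.H383.KN.Main
import Vale.Agent.P281.H64.Z4.Defs

/-!
# P281, project T-MM (helper364): the fibres of a model, without input
-/

open Set
open Vale.Agent.P281 Vale.Agent.P281.H713.TZ.S
open scoped Manifold ContDiff Topology

set_option linter.all false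

noncomputable section

namespace Vale.Agent.P281.H364.MM

/-- **T-MM**, without input -/
theorem fibMod_pos {p d : ℕ} {X Y X₁ Y₁ : Type} [TopologicalSpace X]
    [ChartedSpace (Cm (p + d)) X] [TopologicalSpace Y] [ChartedSpace (Cm p) Y]
    [TopologicalSpace X₁] [ChartedSpace (Cm (p + d)) X₁] [TopologicalSpace Y₁]
    [ChartedSpace (Cm p) Y₁] {f : X → Y} {Δ : Set X → ℝ} {f₁ : X₁ → Y₁} {Δ₁ : Set X₁ → ℝ}
    (h : H511.Surf.IsFibration (Cm (p + d)) (Cm p) f Δ)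
    (h₁ : H511.Surf.IsFibration (Cm (p + d)) (Cm p) f₁ Δ₁)
    (hs : IsStep (Cm (p + d)) (Cm p) f₁ Δ₁ f Δ) {H₁ : ℕ → Set Y₁}
    (hH₁ : ∀ k, H64.Thin.IsThinSet (Cm p) (H₁ k)) :
    ∃ H : ℕ → Set Y, (∀ k, H64.Thin.IsThinSet (Cm p) (H k)) ∧ ∀ y, (∀ k, y ∉ H k) →
      ∀ (F : Type) [TopologicalSpace F] [ChartedSpace (Cm d) F] (i : F → X),
        H511.Surf.IsFibre (Cm (p + d)) (Cm d) f y i → Function.Injective i →
        ∃ (y₁ : Y₁) (F₁ : Type) (_ : TopologicalSpace F₁) (_ : T2Space F₁)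
          (_ : ChartedSpace (Cm d) F₁) (i₁ : F₁ → X₁), (∀ k, y₁ ∉ H₁ k) ∧
          H511.Surf.IsFibre (Cm (p + d)) (Cm d) f₁ y₁ i₁ ∧ Function.Injective i₁ ∧
          kodR (Cm (p + d)) (Cm d) i Δ ≤ kodR (Cm (p + d)) (Cm d) i₁ Δ₁ :=
  fibMod_of H413.TZ.genPart H737.Gen.exc H383.KN.imgN (H364.crit H150.Gen.img) h h₁ hs hH₁

open Vale.Agent.P281.H64.Z4 in
/-- the literal of `H64/Z4/Core` -/
theorem fibMod (p k : ℕ) (X Y X₁ Y₁ : Type) [TopologicalSpace X] [ChartedSpace (Cm (p + k)) X]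
    [TopologicalSpace Y] [ChartedSpace (Cm p) Y] [TopologicalSpace X₁]
    [ChartedSpace (Cm (p + k)) X₁] [TopologicalSpace Y₁] [ChartedSpace (Cm p) Y₁] (f : X → Y)
    (f₁ : X₁ → Y₁) (Δ : Set X → ℝ) (Δ₁ : Set X₁ → ℝ) (h : Fibn (p + k) p f Δ)
    (h₁ : Fibn (p + k) p f₁ Δ₁) (hs : IsStep (Cm (p + k)) (Cm p) f₁ Δ₁ f Δ) (H₁ : ℕ → Set Y₁)
    (hH₁ : Thins p H₁) : ∃ H : ℕ → Set Y, Thins p H ∧ ∀ y, (∀ j, y ∉ H j) →
      ∀ (F : Type) [TopologicalSpace F] [T2Space F] [ChartedSpace (Cm k) F] (i : F → X),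
        Fbr (p + k) k f y i → Function.Injective i → ∃ y₁, (∀ j, y₁ ∉ H₁ j) ∧
          ∃ (F₁ : Type) (_ : TopologicalSpace F₁) (_ : T2Space F₁) (_ : ChartedSpace (Cm k) F₁)
            (i₁ : F₁ → X₁), Fbr (p + k) k f₁ y₁ i₁ ∧ Function.Injective i₁ ∧
              kR (p + k) k i Δ ≤ kR (p + k) k i₁ Δ₁ := by
  obtain ⟨H, hH, hm⟩ := fibMod_pos h h₁ hs hH₁
  refine ⟨H, hH, fun y hy F _ _ _ i hi hinj => ?_⟩
  obtain ⟨y₁, F₁, _, _, _, i₁, h1, h2, h3, h4⟩ := hm y hy F i hi hinj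
  exact ⟨y₁, h1, F₁, inferInstance, inferInstance, inferInstance, i₁, h2, h3, h4⟩

end Vale.Agent.P281.H364.MM
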