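import Vale.Agent.P281.H364.MM.Fib2

/-!
# P281, project T-MM (helper364): the Kodaira dimensions of the fibres

The end of the proof follows `H624/TM/Kod.lean` (helper624).
-/

open scoped Manifold ContDiff Topology
open Set Filter Metric Vale.Agent.P281 Vale.Agent.P281.H713
open Vale.Agent.P281.H64 (Cm)
open Vale.Agent.P281.H740 (eqF exists_retr mfderiv_chart_self)

set_option linter.all false

noncomputable section

namespace Vale.Agent.P281.H364.MM

open Vale.Agent.P281.H713.TZ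

/-- a non constant function has a point where it is not zero -/
theorem exists_ne {d : ℕ} {F : Type} [TopologicalSpace F] [ChartedSpace (Cm d) F] {V : Set F}
    (hV : IsOpen V) (hne : V.Nonempty) {u : F → ℂ} (hu : ∀ t ∈ V, J.dif (Cm d) u t ≠ 0) :
    ∃ V' ⊆ V, IsOpen V' ∧ V'.Nonempty ∧ ∀ t ∈ V', u t ≠ 0 := by
  obtain ⟨t, ht⟩ := hne
  have hc : ∀ t ∈ V, ContinuousAt u t := by
    intro t ht
    by_contra hcon
    apply hu t ht
    exact mfderiv_zero_of_not_mdifferentiableAt fun h => hcon h.continuousAt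
  have h1 : ∃ t ∈ V, u t ≠ 0 := by
    by_contra hcon
    push Not at hcon
    apply hu t ht
    have h2 : u =ᶠ[𝓝 t] fun _ => 0 := by
      filter_upwards [hV.mem_nhds ht] with z hz
      exact hcon z hz
    show mfderiv 𝓘(ℂ, Cm d) 𝓘(ℂ, ℂ) u t = 0
    rw [h2.mfderiv_eq]
    exact mfderiv_const
  obtain ⟨t₁, ht₁, h2⟩ := h1
  obtain ⟨V', h3, h4, h5⟩ := eventually_nhds_iff.1
    (((hc t₁ ht₁).eventually_ne h2).and (hV.mem_nhds ht₁))
  exact ⟨V', fun t ht => (h3 t ht).2, h4, ⟨t₁, h5⟩, fun t ht => (h3 t ht).1⟩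

theorem exists_ne_all {d : ℕ} {F : Type} [TopologicalSpace F] [ChartedSpace (Cm d) F] {ι : Type}
    (T : Finset ι) {u : ι → F → ℂ} {V : Set F} (hV : IsOpen V) (hne : V.Nonempty)
    (hu : ∀ b ∈ T, ∀ t ∈ V, J.dif (Cm d) (u b) t ≠ 0) :
    ∃ V' ⊆ V, IsOpen V' ∧ V'.Nonempty ∧ ∀ b ∈ T, ∀ t ∈ V', u b t ≠ 0 := by
  classical
  induction T using Finset.induction_on with
  | empty => exact ⟨V, Subset.rfl, hV, hne, fun b hb => absurd hb (Finset.notMem_empty b)⟩
  | @insert a T ha ih =>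
    obtain ⟨V₁, h1, h2, h3, h4⟩ := ih fun b hb => hu b (Finset.mem_insert_of_mem hb)
    obtain ⟨V₂, g1, g2, g3, g4⟩ := exists_ne h2 h3
      (fun t ht => hu a (Finset.mem_insert_self a T) t (h1 ht))
    refine ⟨V₂, g1.trans h1, g2, g3, fun b hb t ht => ?_⟩
    rcases Finset.mem_insert.1 hb with rfl | hb
    · exact g4 t ht
    · exact h4 b hb t (g1 ht)

section
variable {n d : ℕ} {X F : Type} [TopologicalSpace X] [ChartedSpace (Cm n) X]
  [TopologicalSpace F] [ChartedSpace (Cm d) F] [IsManifold 𝓘(ℂ, Cm d) ω F]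

theorem sec_pow {eqn : Set X → F → (F → ℂ) → Prop} {m : ℕ} {k : Set X → ℕ} {s : F → ℂ}
    (hs : J.IsSection (Cm d) eqn m k s) (q : ℕ) :
    J.IsSection (Cm d) eqn (m * q) (fun D => k D * q) (fun z => s z ^ q) := by
  intro z₀
  obtain ⟨T, g, a, hT, hg, ha, hev⟩ := hs z₀
  refine ⟨T, g, fun z => a z ^ q, fun i hi => hT i (left_ne_zero_of_mul hi), hg,
    HolV.pow ha q, ?_⟩
  filter_upwards [hev] with z hz hne
  have h1 : ∏ i ∈ T, g i z ^ (k i * q) = (∏ i ∈ T, g i z ^ k i) ^ q := by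
    rw [← Finset.prod_pow]
    exact Finset.prod_congr rfl fun i _ => by rw [pow_mul]
  have h1' : ∏ i ∈ T, g i z ^ (k i * q) ≠ 0 := hne
  rw [h1] at h1'
  show s z ^ q * ∏ i ∈ T, g i z ^ (k i * q) = _
  rw [h1]
  by_cases hq : q = 0
  · subst hq; simp
  · have h2 : ∏ i ∈ T, g i z ^ k i ≠ 0 := fun h0 => h1' (by rw [h0, zero_pow hq])
    rw [← mul_pow, hz h2, mul_pow, pow_mul]

/-- the points where `ν` is a local isomorphism form an open set -/
theorem det_ev {F₁ : Type} [TopologicalSpace F₁] [ChartedSpace (Cm d) F₁]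
    [IsManifold 𝓘(ℂ, Cm d) ω F₁] {ν : F₁ → F} (hν : ContMDiff 𝓘(ℂ, Cm d) 𝓘(ℂ, Cm d) ω ν)
    {s₁ : F₁} (h : (dM (Cm d) (Cm d) ν s₁).det ≠ 0) :
    ∀ᶠ s in 𝓝 s₁, (dM (Cm d) (Cm d) ν s).det ≠ 0 := by
  set φ := chartAt (Cm d) (ν s₁) with hφ
  have hs : ν s₁ ∈ φ.source := mem_chart_source _ _
  have hev : ∀ᶠ s in 𝓝 s₁, ν s ∈ φ.source :=
    hν.continuous.continuousAt.eventually (φ.open_source.mem_nhds hs)
  have hdet : ∀ s, ν s ∈ φ.source → (dV (Cm d) (fun s => (φ : F → Cm d) (ν s)) s).det =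
      jac (Cm d) (φ : F → Cm d) (ν s) * (dM (Cm d) (Cm d) ν s).det := by
    intro s hs
    have h1 := dV_comp (h := (φ : F → Cm d)) (HolV.chart hs) (show HolM (Cm d) (Cm d) ν s from hν s)
    rw [h1]
    exact clm_det_comp _ _
  have hc : HolV (Cm d) (fun s => (φ : F → Cm d) (ν s)) s₁ :=
    HolV.comp (E' := Cm d) (HolV.chart hs) (hν s₁)
  have hu : IsUnit (dV (Cm d) (fun s => (φ : F → Cm d) (ν s)) s₁) := by
    refine SA.isUnit_of_det_ne ?_
    rw [hdet s₁ hs]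
    exact mul_ne_zero (jac_chart_ne_zero hs) h
  filter_upwards [SA.unit_nhds hc hu, hev] with s h1 h2 h0
  have h3 := hdet s h2
  rw [h0, mul_zero] at h3
  obtain ⟨w, hw⟩ := h1.2.1
  have h4 : (dV (Cm d) (fun s => (φ : F → Cm d) (ν s)) s).comp
      (Ring.inverse (dV (Cm d) (fun s => (φ : F → Cm d) (ν s)) s)) =
      ContinuousLinearMap.id ℂ (Cm d) := Ring.mul_inverse_cancel _ h1.2.1
  have h5 := congrArg ContinuousLinearMap.det h4
  rw [clm_det_comp, h3, zero_mul] at h5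
  have h6 : (ContinuousLinearMap.id ℂ (Cm d)).det = 1 := LinearMap.det_id
  rw [h6] at h5
  exact zero_ne_one h5

end

end Vale.Agent.P281.H364.MM
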