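import Vale.Agent.P281.H364.MM.Down3
import Vale.Agent.P281.H364.MM.Fin
import Vale.Agent.P281.H303.Gen.Push
import Vale.Agent.P281.H485.Gen.Har
import Vale.Agent.P281.H383.KN.Main

/-!
# P281, project T-MM (helper364): the fibres of linked fibrations
-/

open Set
open Vale.Agent.P281 Vale.Agent.P281.H713.TZ.S
open Vale.Agent.P281.H64.Thin (IsThinSet)
open Vale.Agent.P281.H511.Surf (IsFibration)
open scoped Manifold ContDiff Topology

set_option linter.all false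

noncomputable section

namespace Vale.Agent.P281.H364.MM

attribute [local instance] Fib.tX Fib.tY Fib.cX Fib.cY

/-- **the other direction of T-MM**, without input -/
theorem fibDown_pos {p d : ℕ} {X Y X₁ Y₁ : Type} [TopologicalSpace X]
    [ChartedSpace (Cm (p + d)) X] [TopologicalSpace Y] [ChartedSpace (Cm p) Y]
    [TopologicalSpace X₁] [ChartedSpace (Cm (p + d)) X₁] [TopologicalSpace Y₁]
    [ChartedSpace (Cm p) Y₁] {f : X → Y} {Δ : Set X → ℝ} {f₁ : X₁ → Y₁} {Δ₁ : Set X₁ → ℝ}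
    (h : IsFibration (Cm (p + d)) (Cm p) f Δ) (h₁ : IsFibration (Cm (p + d)) (Cm p) f₁ Δ₁)
    (hs : IsStep (Cm (p + d)) (Cm p) f₁ Δ₁ f Δ) {H : ℕ → Set Y}
    (hH : ∀ k, IsThinSet (Cm p) (H k)) :
    ∃ H₁ : ℕ → Set Y₁, (∀ k, IsThinSet (Cm p) (H₁ k)) ∧ ∀ y₁, (∀ k, y₁ ∉ H₁ k) →
      ∀ (F₁ : Type) [TopologicalSpace F₁] [ChartedSpace (Cm d) F₁] (i₁ : F₁ → X₁),
        H511.Surf.IsFibre (Cm (p + d)) (Cm d) f₁ y₁ i₁ → Function.Injective i₁ →
        ∃ (y : Y) (F : Type) (_ : TopologicalSpace F) (_ : T2Space F)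
          (_ : ChartedSpace (Cm d) F) (i : F → X), (∀ k, y ∉ H k) ∧
          H511.Surf.IsFibre (Cm (p + d)) (Cm d) f y i ∧ Function.Injective i ∧
          kodR (Cm (p + d)) (Cm d) i₁ Δ₁ ≤ kodR (Cm (p + d)) (Cm d) i Δ :=
  fibDown_of H737.Gen.exc (H364.crit H150.Gen.img) H383.KN.genN H485.Gen.har H303.Gen.pushStmt
    h h₁ hs hH

/-- the very general fibres of `M` are those of `M₁`, up to modifications -/
def FibTo (p k : ℕ) (M M₁ : Fib (Cm (p + k)) (Cm p)) : Prop :=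
  ∀ H₁ : ℕ → Set M₁.Y, (∀ j, IsThinSet (Cm p) (H₁ j)) →
    ∃ H : ℕ → Set M.Y, (∀ j, IsThinSet (Cm p) (H j)) ∧ ∀ y, (∀ j, y ∉ H j) →
      ∀ (F : Type) [TopologicalSpace F] [ChartedSpace (Cm k) F] (i : F → M.X),
        H511.Surf.IsFibre (Cm (p + k)) (Cm k) M.f y i → Function.Injective i →
        ∃ (y₁ : M₁.Y) (F₁ : Type) (_ : TopologicalSpace F₁) (_ : T2Space F₁)
          (_ : ChartedSpace (Cm k) F₁) (i₁ : F₁ → M₁.X), (∀ j, y₁ ∉ H₁ j) ∧
          H511.Surf.IsFibre (Cm (p + k)) (Cm k) M₁.f y₁ i₁ ∧ Function.Injective i₁ ∧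
          kodR (Cm (p + k)) (Cm k) i M.Δ ≤ kodR (Cm (p + k)) (Cm k) i₁ M₁.Δ

theorem FibTo.trans {p k : ℕ} {A B C : Fib (Cm (p + k)) (Cm p)} (h : FibTo p k A B)
    (h' : FibTo p k B C) : FibTo p k A C := by
  intro H₂ hH₂
  obtain ⟨H₁, hH₁, hm₁⟩ := h' H₂ hH₂
  obtain ⟨H, hH, hm⟩ := h H₁ hH₁
  refine ⟨H, hH, fun y hy F _ _ i hi hinj => ?_⟩
  obtain ⟨y₁, F₁, _, _, _, i₁, h1, h2, h3, h4⟩ := hm y hy F i hi hinj
  obtain ⟨y₂, F₂, _, _, _, i₂, g1, g2, g3, g4⟩ := hm₁ y₁ h1 F₁ i₁ h2 h3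
  exact ⟨y₂, F₂, inferInstance, inferInstance, inferInstance, i₂, g1, g2, g3, h4.trans g4⟩

/-- the fibres of a fibration are Hausdorff -/
theorem t2_fib {p k : ℕ} {X Y : Type} [TopologicalSpace X] [ChartedSpace (Cm (p + k)) X]
    [TopologicalSpace Y] [ChartedSpace (Cm p) Y] {f : X → Y} {Δ : Set X → ℝ}
    (h : IsFibration (Cm (p + k)) (Cm p) f Δ) {y : Y} {F : Type} [TopologicalSpace F]
    [ChartedSpace (Cm k) F] {i : F → X} (hi : H511.Surf.IsFibre (Cm (p + k)) (Cm k) f y i)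
    (hinj : Function.Injective i) : T2Space F := by
  have : T2Space X := h.hausdorff.1
  exact T2Space.of_injective_continuous hinj hi.hol.continuous

theorem FibTo.refl {p k : ℕ} (A : Fib (Cm (p + k)) (Cm p))
    (h : IsFibration (Cm (p + k)) (Cm p) A.f A.Δ) : FibTo p k A A := by
  intro H hH
  refine ⟨H, hH, fun y hy F _ _ i hi hinj => ?_⟩
  have : T2Space F := t2_fib h hi hinj
  exact ⟨y, F, inferInstance, inferInstance, inferInstance, i, hy, hi, hinj, le_rfl⟩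

/-- linked fibrations have the same very general fibres -/
theorem fibTo_of {p k : ℕ} (fib : ∀ A B : Fib (Cm (p + k)) (Cm p),
      Linked (Cm (p + k)) (Cm p) A B → (IsFibration (Cm (p + k)) (Cm p) A.f A.Δ ↔
        IsFibration (Cm (p + k)) (Cm p) B.f B.Δ)) (A B : Fib (Cm (p + k)) (Cm p))
    (h : Linked (Cm (p + k)) (Cm p) A B) (hA : IsFibration (Cm (p + k)) (Cm p) A.f A.Δ) :
    FibTo p k A B ∧ FibTo p k B A := by
  induction h with
  | rel A B hAB =>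
    have hB := (fib A B (.rel _ _ hAB)).1 hA
    exact ⟨fun H hH => fibDown_pos hB hA hAB hH, fun H hH => fibMod_pos hB hA hAB hH⟩
  | refl A => exact ⟨.refl A hA, .refl A hA⟩
  | symm A B hAB ih => exact (ih ((fib A B hAB).2 hA)).symm
  | trans A B C h1 h2 ih ih' =>
    have hB := (fib A B h1).1 hA
    have h3 := ih hA
    have h4 := ih' hB
    exact ⟨h3.1.trans h4.1, h4.2.trans h3.2⟩

/-- the fibres of linked fibrations: the literal `FibLink` of `H303/Z6/Core` -/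
theorem fibLinked_of (fib : ∀ (p k : ℕ) (A B : Fib (Cm (p + k)) (Cm p)),
      Linked (Cm (p + k)) (Cm p) A B → (IsFibration (Cm (p + k)) (Cm p) A.f A.Δ ↔
        IsFibration (Cm (p + k)) (Cm p) B.f B.Δ))
    (p k : ℕ) (X Y X₁ Y₁ : Type) [t : TopologicalSpace X] [c : ChartedSpace (Cm (p + k)) X]
    [s : TopologicalSpace Y] [e : ChartedSpace (Cm p) Y] [t₁ : TopologicalSpace X₁]
    [c₁ : ChartedSpace (Cm (p + k)) X₁] [s₁ : TopologicalSpace Y₁] [e₁ : ChartedSpace (Cm p) Y₁]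
    (f : X → Y) (f₁ : X₁ → Y₁) (Δ : Set X → ℝ) (Δ₁ : Set X₁ → ℝ)
    (h : IsFibration (Cm (p + k)) (Cm p) f Δ)
    (hl : Linked (Cm (p + k)) (Cm p) ⟨X, Y, t, s, c, e, f, Δ⟩
      ⟨X₁, Y₁, t₁, s₁, c₁, e₁, f₁, Δ₁⟩)
    (H₁ : ℕ → Set Y₁) (hH₁ : ∀ j, IsThinSet (Cm p) (H₁ j)) :
    ∃ H : ℕ → Set Y, (∀ j, IsThinSet (Cm p) (H j)) ∧ ∀ y, (∀ j, y ∉ H j) →
      ∀ (F : Type) [TopologicalSpace F] [T2Space F] [ChartedSpace (Cm k) F] (i : F → X),
        H511.Surf.IsFibre (Cm (p + k)) (Cm k) f y i → Function.Injective i →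
        ∃ y₁, (∀ j, y₁ ∉ H₁ j) ∧
          ∃ (F₁ : Type) (_ : TopologicalSpace F₁) (_ : T2Space F₁) (_ : ChartedSpace (Cm k) F₁)
            (i₁ : F₁ → X₁), H511.Surf.IsFibre (Cm (p + k)) (Cm k) f₁ y₁ i₁ ∧
              Function.Injective i₁ ∧
              kodR (Cm (p + k)) (Cm k) i Δ ≤ kodR (Cm (p + k)) (Cm k) i₁ Δ₁ := by
  obtain ⟨H, hH, hm⟩ := (fibTo_of (fib p k) _ _ hl h).1 H₁ hH₁
  refine ⟨H, hH, fun y hy F _ _ _ i hi hinj => ?_⟩
  obtain ⟨y₁, F₁, _, _, _, i₁, h1, h2, h3, h4⟩ := hm y hy F i hi hinj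
  exact ⟨y₁, h1, F₁, inferInstance, inferInstance, inferInstance, i₁, h2, h3, h4⟩

end Vale.Agent.P281.H364.MM
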