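import Vale.Agent.P281.MF.SecExt
import Vale.Agent.P281.H740.TW.Open

/-!
# P281, project T-MM (helper364): a section on a fibre, given on a dense set, extends
-/

open scoped Manifold ContDiff Topology
open Set Filter Vale.Agent.P281 Vale.Agent.P281.MF Vale.Agent.P281.H740

set_option linter.all false

noncomputable section

namespace Vale.Agent.P281.H364.MM

variable {n : ℕ} {E : Type} [NormedAddCommGroup E] [NormedSpace ℂ E] [FiniteDimensional ℂ E]
  {X F : Type} [TopologicalSpace X] [ChartedSpace (Fin n → ℂ) X]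
  [IsManifold 𝓘(ℂ, Fin n → ℂ) ω X] [TopologicalSpace F] [ChartedSpace E F]
  [IsManifold 𝓘(ℂ, E) ω F]

theorem eqF_ev {i : F → X} (hi : ContMDiff 𝓘(ℂ, E) 𝓘(ℂ, Fin n → ℂ) ω i) {D : Set X} {t : F}
    {g : F → ℂ} (h : eqF n i D t g) : ∀ᶠ s in 𝓝 t, eqF n i D s g := by
  obtain ⟨e, ⟨V, hV, hx, a1, a2, a3⟩, h5⟩ := h
  filter_upwards [hi.continuous.continuousAt.eventually (hV.mem_nhds hx),
    eventually_eventually_nhds.2 h5] with t b2 b3
  exact ⟨e, ⟨V, hV, b2, a1, a2, a3⟩, b3⟩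

theorem extend_fib {i : F → X} (hi : ContMDiff 𝓘(ℂ, E) 𝓘(ℂ, Fin n → ℂ) ω i) {m : ℕ}
    {K : Set X → ℕ} {Ω : Set F} (hΩ : Dense Ω) {σ : F → ℂ}
    (h : ∀ z₀ : F, ∃ (T : Finset (Set X)) (g : Set X → F → ℂ) (Q : F → ℂ),
      (∀ D, K D ≠ 0 → D ∈ T) ∧ (∀ D ∈ T, eqF n i D z₀ (g D)) ∧ HolV E Q z₀ ∧
      ∀ᶠ z in 𝓝 z₀, z ∈ Ω → ∏ D ∈ T, g D z ^ K D ≠ 0 →
        σ z * ∏ D ∈ T, g D z ^ K D = Q z * jac E (chartAt E z₀) z ^ m) :
    ∃ σ' : F → ℂ, (∀ z ∈ Ω, σ' z = σ z) ∧ J.IsSection E (eqF n i) m K σ' := by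
  classical
  choose T g Q hT hg hQ hs using h
  refine ⟨fun z => if z ∈ Ω then σ z else
    Q z z * jac E (chartAt E z : F → E) z ^ m / ∏ D ∈ T z, g z D z ^ K D,
    fun z hz => if_pos hz, fun z₀ => ⟨T z₀, g z₀, Q z₀, hT z₀, hg z₀, hQ z₀, ?_⟩⟩
  have hev : ∀ᶠ z in 𝓝 z₀, ∀ D ∈ T z₀, eqF n i D z (g z₀ D) :=
    (Finset.eventually_all (T z₀)).2 fun D hD => eqF_ev hi (hg z₀ D hD)
  have hev2 : ∀ᶠ z in 𝓝 z₀, ∀ᶠ w in 𝓝 z, w ∈ Ω → ∏ D ∈ T z₀, g z₀ D w ^ K D ≠ 0 →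
      σ w * ∏ D ∈ T z₀, g z₀ D w ^ K D = Q z₀ w * jac E (chartAt E z₀ : F → E) w ^ m :=
    (hs z₀).eventually_nhds
  filter_upwards [hs z₀, hev, hev2, (hQ z₀).eventually,
    (chartAt E z₀).open_source.mem_nhds (mem_chart_source E z₀)] with z h1 h2 h3 h4 hz0 hne
  by_cases hz : z ∈ Ω
  · simp only [if_pos hz]
    exact h1 hz hne
  · simp only [if_neg hz]
    have hzs : z ∈ (chartAt E z).source := mem_chart_source E z
    -- the product of the equations at `z` is not zero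
    have hne' : ∏ D ∈ T z, g z D z ^ K D ≠ 0 := by
      rw [Finset.prod_ne_zero_iff]
      intro D hD
      by_cases hK : K D = 0
      · rw [hK, pow_zero]
        exact one_ne_zero
      · have h5 : g z₀ D z ^ K D ≠ 0 := Finset.prod_ne_zero_iff.1 hne D (hT z₀ D hK)
        have h6 : g z₀ D z ≠ 0 := fun h0 => h5 (by rw [h0, zero_pow hK])
        have h7 : i z ∉ D := fun hzD => h6 ((h2 D (hT z₀ D hK)).mem.1 hzD)
        exact pow_ne_zero _ fun h0 => h7 ((hg z D hD).mem.2 h0)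
    -- continuity at `z`
    have hc0 : ContinuousAt (fun w => ∏ D ∈ T z₀, g z₀ D w ^ K D) z :=
      tendsto_finsetProd _ fun D hD => (((h2 D hD).hol hi).continuousAt).pow _
    have hcz : ContinuousAt (fun w => ∏ D ∈ T z, g z D w ^ K D) z :=
      tendsto_finsetProd _ fun D hD => (((hg z D hD).hol hi).continuousAt).pow _
    have hQ0 : ContinuousAt (Q z₀) z := h4.continuousAt
    have hQz : ContinuousAt (Q z) z := (hQ z).continuousAt
    have hδ := continuousAt_jac_ratio (E := E) hz0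
    set δ : F → ℂ := fun w =>
      (fderiv ℂ ((chartAt E z₀ : F → E) ∘ (chartAt E z).symm) (chartAt E z w)).det with hδdef
    have hL : ContinuousAt (fun w => Q z₀ w * δ w ^ m * ∏ D ∈ T z, g z D w ^ K D) z :=
      (hQ0.mul (hδ.pow m)).mul hcz
    have hR : ContinuousAt (fun w => Q z w * ∏ D ∈ T z₀, g z₀ D w ^ K D) z := hQz.mul hc0
    have heq : (fun w => Q z₀ w * δ w ^ m * ∏ D ∈ T z, g z D w ^ K D) =ᶠ[𝓝[Ω] z]
        fun w => Q z w * ∏ D ∈ T z₀, g z₀ D w ^ K D := by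
      have e1 : ∀ᶠ w in 𝓝[Ω] z, w ∈ Ω := self_mem_nhdsWithin
      filter_upwards [e1, h3.filter_mono nhdsWithin_le_nhds,
        (hs z).filter_mono nhdsWithin_le_nhds,
        (hc0.eventually_ne hne).filter_mono nhdsWithin_le_nhds,
        (hcz.eventually_ne hne').filter_mono nhdsWithin_le_nhds,
        mem_nhdsWithin_of_mem_nhds ((chartAt E z₀).open_source.mem_nhds hz0),
        mem_nhdsWithin_of_mem_nhds ((chartAt E z).open_source.mem_nhds hzs)] with
        w w1 w2 w3 w4 w5 w6 w7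
      have a1 := w2 w1 w4
      have a2 := w3 w1 w5
      have a3 : jac E (chartAt E z₀ : F → E) w = δ w * jac E (chartAt E z : F → E) w :=
        jac_chart_comp w6 w7
      have a4 : jac E (chartAt E z : F → E) w ^ m ≠ 0 := pow_ne_zero _ (jac_chart_ne_zero w7)
      rw [a3, mul_pow] at a1
      have a5 : (Q z₀ w * δ w ^ m * ∏ D ∈ T z, g z D w ^ K D) *
          jac E (chartAt E z : F → E) w ^ m =
          (Q z w * ∏ D ∈ T z₀, g z₀ D w ^ K D) * jac E (chartAt E z : F → E) w ^ m := by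
        calc _ = (Q z₀ w * (δ w ^ m * jac E (chartAt E z : F → E) w ^ m)) *
              ∏ D ∈ T z, g z D w ^ K D := by ring
          _ = (σ w * ∏ D ∈ T z₀, g z₀ D w ^ K D) * ∏ D ∈ T z, g z D w ^ K D := by rw [a1]
          _ = (σ w * ∏ D ∈ T z, g z D w ^ K D) * ∏ D ∈ T z₀, g z₀ D w ^ K D := by ring
          _ = _ := by
            rw [a2]
            ring
      exact mul_right_cancel₀ a4 a5
    have : NeBot (𝓝[Ω] z) := mem_closure_iff_nhdsWithin_neBot.1 (hΩ z)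
    have key := tendsto_nhds_unique_of_eventuallyEq
      (hL.tendsto.mono_left nhdsWithin_le_nhds) (hR.tendsto.mono_left nhdsWithin_le_nhds) heq
    have a3 : jac E (chartAt E z₀ : F → E) z = δ z * jac E (chartAt E z : F → E) z :=
      jac_chart_comp hz0 hzs
    show (Q z z * jac E (chartAt E z : F → E) z ^ m / ∏ D ∈ T z, g z D z ^ K D) *
      ∏ i ∈ T z₀, g z₀ i z ^ K i = Q z₀ z * jac E (chartAt E z₀ : F → E) z ^ m
    rw [a3, mul_pow, div_mul_eq_mul_div, div_eq_iff hne']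
    calc _ = (Q z z * ∏ D ∈ T z₀, g z₀ D z ^ K D) * jac E (chartAt E z : F → E) z ^ m := by ring
      _ = (Q z₀ z * δ z ^ m * ∏ D ∈ T z, g z D z ^ K D) *
          jac E (chartAt E z : F → E) z ^ m := by rw [key]
      _ = _ := by ring

end Vale.Agent.P281.H364.MM
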