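import Vale.Agent.P281.H364.MM.PullX
import Vale.Agent.P281.H364.MM.Sec
import Vale.Agent.P281.H740.TW.Iota
import Vale.Agent.P281.H737.TW.Restr

/-!
# P281, project T-MM (helper364): pull-back of pluricanonical sections of a fibre
-/

open scoped Manifold ContDiff Topology
open Set Filter Metric Vale.Agent.P281 Vale.Agent.P281.H713
open Vale.Agent.P281.H64 (Cm)
open Vale.Agent.P281.H740 (eqF exists_retr mfderiv_chart_self)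
open Vale.Agent.P281.H737.TW (Jd Jd_left Jd_right exists_jac exists_unit)

set_option linter.all false

noncomputable section

namespace Vale.Agent.P281.H364.MM

open Vale.Agent.P281.H713.TZ

/-- the relation between the determinants -/
theorem key_det {p d : ℕ} {A : Cm (p + d) →L[ℂ] Cm (p + d)} {T₁ T : Cm d →L[ℂ] Cm (p + d)}
    {P₁ P : Cm (p + d) →L[ℂ] Cm p} {B : Cm p →L[ℂ] Cm p} {N : Cm d →L[ℂ] Cm d} {J₁ J : ℂ}
    (hP₁ : Function.Surjective P₁)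
    (h₁ : ∀ R : Cm p →L[ℂ] Cm (p + d), Jd R T₁ = J₁ * (P₁.comp R).det)
    (h : ∀ R : Cm p →L[ℂ] Cm (p + d), Jd R T = J * (P.comp R).det)
    (hA : A.comp T₁ = T.comp N) (hB : P.comp A = B.comp P₁) :
    A.det * J₁ = J * B.det * N.det := by
  obtain ⟨r, hr⟩ := LinearMap.exists_rightInverse_of_surjective
    (P₁ : Cm (p + d) →ₗ[ℂ] Cm p) (LinearMap.range_eq_top.2 hP₁)
  set R₁ : Cm p →L[ℂ] Cm (p + d) := LinearMap.toContinuousLinearMap r with hR₁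
  have hid : P₁.comp R₁ = ContinuousLinearMap.id ℂ (Cm p) := by
    ext v
    exact congrFun (LinearMap.congr_fun hr v) _
  have e1 := Jd_left A R₁ T₁
  rw [hA, Jd_right, h, h₁, hid] at e1
  have e2 : P.comp (A.comp R₁) = B := by
    rw [← ContinuousLinearMap.comp_assoc, hB, ContinuousLinearMap.comp_assoc, hid,
      ContinuousLinearMap.comp_id]
  have e3 : (ContinuousLinearMap.id ℂ (Cm p)).det = 1 := LinearMap.det_id
  rw [e2, e3, mul_one] at e1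
  exact e1.symm

section
variable {p d : ℕ} {X Y F : Type} [TopologicalSpace X] [ChartedSpace (Cm (p + d)) X]
  [IsManifold 𝓘(ℂ, Cm (p + d)) ω X] [TopologicalSpace Y] [ChartedSpace (Cm p) Y]
  [IsManifold 𝓘(ℂ, Cm p) ω Y] [TopologicalSpace F] [ChartedSpace (Cm d) F]
  [IsManifold 𝓘(ℂ, Cm d) ω F] {f : X → Y} {i : F → X} {y : Y}

theorem Wf_hol (hf : ContMDiff 𝓘(ℂ, Cm (p + d)) 𝓘(ℂ, Cm p) ω f) {x : X} (hx : f x = y) :
    ContMDiffAt 𝓘(ℂ, Cm (p + d)) 𝓘(ℂ, Cm p) ω (fun x => chartAt (Cm p) y (f x)) x ∧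
      ∀ ξ : Cm (p + d), (mfderiv 𝓘(ℂ, Cm (p + d)) 𝓘(ℂ, Cm p) (fun x => chartAt (Cm p) y (f x)) x
        ξ : Cm p) = mfderiv 𝓘(ℂ, Cm (p + d)) 𝓘(ℂ, Cm p) f x ξ := by
  subst hx
  obtain ⟨hc, hcd⟩ := mfderiv_chart_self (E := Cm p) (f x)
  refine ⟨ContMDiffAt.comp x (g := chartAt (Cm p) (f x)) (f := f) hc (hf x), fun ξ => ?_⟩
  have e2 := mfderiv_comp_apply x (g := chartAt (Cm p) (f x)) (f := f)
    (hc.mdifferentiableAt (by simp)) ((hf x).mdifferentiableAt (by simp)) ξ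
  exact e2.trans (congrArg (fun T : Cm p →L[ℂ] Cm p =>
    T (mfderiv 𝓘(ℂ, Cm (p + d)) 𝓘(ℂ, Cm p) f x ξ)) hcd)

/-- the comparison of the Jacobians along a fibre -/
theorem exists_Jac (hf : ContMDiff 𝓘(ℂ, Cm (p + d)) 𝓘(ℂ, Cm p) ω f)
    (hi : ContMDiff 𝓘(ℂ, Cm d) 𝓘(ℂ, Cm (p + d)) ω i) (hfi : ∀ t, f (i t) = y)
    (hsub : ∀ t, Function.Surjective (mfderiv 𝓘(ℂ, Cm (p + d)) 𝓘(ℂ, Cm p) f (i t)))
    (himm : ∀ t, Function.Injective (mfderiv 𝓘(ℂ, Cm d) 𝓘(ℂ, Cm (p + d)) i t)) :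
    ∃ Jac : F → ℂ, (∀ t, Jac t ≠ 0) ∧ (∀ t (R : Cm p →L[ℂ] Cm (p + d)),
      Jd R (mfderiv 𝓘(ℂ, Cm d) 𝓘(ℂ, Cm (p + d)) i t) = Jac t * ContinuousLinearMap.det
        ((mfderiv 𝓘(ℂ, Cm (p + d)) 𝓘(ℂ, Cm p) f (i t) : Cm (p + d) →L[ℂ] Cm p).comp R)) ∧
      ∀ t₀, ∃ U : F → ℂ, HolV (Cm d) U t₀ ∧ U t₀ ≠ 0 ∧ ∀ᶠ t in 𝓝 t₀,
        jac (Cm (p + d)) (chartAt (Cm (p + d)) (i t₀)) (i t) * Jac t =
          U t * jac (Cm d) (chartAt (Cm d) t₀) t := by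
  have hPT : ∀ t ξ, mfderiv 𝓘(ℂ, Cm (p + d)) 𝓘(ℂ, Cm p) f (i t)
      (mfderiv 𝓘(ℂ, Cm d) 𝓘(ℂ, Cm (p + d)) i t ξ) = 0 := H740.comp_zero hf hi hfi
  choose Jac hJ0 hJ using fun t => exists_jac (hsub t) (himm t) (hPT t)
  have hW := fun t => Wf_hol (y := y) hf (hfi t)
  have hWd : ∀ t, (mfderiv 𝓘(ℂ, Cm (p + d)) 𝓘(ℂ, Cm p) (fun x => chartAt (Cm p) y (f x)) (i t) :
      Cm (p + d) →L[ℂ] Cm p) = mfderiv 𝓘(ℂ, Cm (p + d)) 𝓘(ℂ, Cm p) f (i t) := fun t =>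
    ContinuousLinearMap.ext (hW t).2
  refine ⟨Jac, hJ0, hJ, fun t₀ => ?_⟩
  obtain ⟨U, hU, hUe⟩ := exists_unit (c := p) (d := d) (ι := i)
    (W := fun x => chartAt (Cm p) y (f x)) hi (fun t => (hW t).1)
    (fun t => by
      intro w
      obtain ⟨ξ, hξ⟩ := hsub t w
      exact ⟨ξ, ((hW t).2 ξ).trans hξ⟩)
    (Jac := Jac) (fun t R => by
      rw [hWd t]
      exact hJ t R) t₀
  refine ⟨U, hU, fun h0 => ?_, hUe⟩
  have h1 := hUe.self_of_nhds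
  rw [h0, zero_mul] at h1
  have h2 : jac (Cm (p + d)) (chartAt (Cm (p + d)) (i t₀) : X → Cm (p + d)) (i t₀) ≠ 0 :=
    jac_chart_ne_zero (mem_chart_source _ _)
  exact mul_ne_zero h2 (hJ0 t₀) h1

end

end Vale.Agent.P281.H364.MM
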