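import Vale.Agent.P281.H364.MM.Conn
import Vale.Agent.P281.H303.X.Base
import Vale.Agent.P281.H303.TE.Step
import Vale.Agent.P281.H64.Z4.Defs

/-!
# P281, project T-MM (helper364): `StepLe` from the case `v = id` of the pull-back (helper303)
-/

open Set
open Vale.Agent.P281 Vale.Agent.P281.H713.TZ.S
open Vale.Agent.P281.H511.Surf (IsFibration)
open Vale.Agent.P281.H64.Gen
open scoped Manifold ContDiff Topology

set_option linter.all false

noncomputable section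

namespace Vale.Agent.P281.H364.MM

/-- the pull-back, for `v = id` (helper303) -/
def PullStmt : Prop :=
  ∀ (n p : ℕ) (X X₁ Y : Type) [TopologicalSpace X] [ChartedSpace (Cm n) X] [TopologicalSpace X₁]
    [ChartedSpace (Cm n) X₁] [TopologicalSpace Y] [ChartedSpace (Cm p) Y] (f : X → Y)
    (Δ : Set X → ℝ) (u : X₁ → X) (Δ₁ : Set X₁ → ℝ),
    IsFibration (Cm n) (Cm p) f Δ → IsFibration (Cm n) (Cm p) (fun x => f (u x)) Δ₁ →
    IsModif (Cm n) u → OrbMor (Cm n) (Cm n) u Δ₁ Δ →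
    kodF n p Δ (id : X → X) f ≤ kodF n p Δ₁ (id : X₁ → X₁) (fun x => f (u x))

/-- the second half of `StepLe` -/
theorem kodF_up (pull : PullStmt) (exc : ExcStmt) (hI : IrrStmt) (hF : FinStmt) (hC : CritStmt)
    (hK : ComplStmt) {n p : ℕ} {X Y X₁ Y₁ : Type} [TopologicalSpace X]
    [ChartedSpace (Cm n) X] [TopologicalSpace Y] [ChartedSpace (Cm p) Y] [TopologicalSpace X₁]
    [ChartedSpace (Cm n) X₁] [TopologicalSpace Y₁] [ChartedSpace (Cm p) Y₁] {f : X → Y}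
    {Δ : Set X → ℝ} {f₁ : X₁ → Y₁} {Δ₁ : Set X₁ → ℝ} (h : IsFibration (Cm n) (Cm p) f Δ)
    (h₁ : IsFibration (Cm n) (Cm p) f₁ Δ₁) (hs : IsStep (Cm n) (Cm p) f₁ Δ₁ f Δ) :
    kodF n p Δ (id : X → X) f ≤ kodF n p Δ₁ (id : X₁ → X₁) f₁ := by
  obtain ⟨u, v, hu, hv, hcomm, hf, hf₁, hΔ, hΔ₁, -, hmor⟩ := hs
  have h2 := fib_modif exc h₁ hv
  have hfun : (fun x => f (u x)) = fun x => v (f₁ x) := funext hcomm
  have : T2Space X₁ := h₁.hausdorff.1
  have : T2Space Y₁ := h₁.hausdorff.2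
  have : CompactSpace X₁ := h₁.compact
  have : ConnectedSpace X₁ := h₁.connected
  have : IsManifold 𝓘(ℂ, Cm n) ω X₁ := h₁.manifold.1
  have : IsManifold 𝓘(ℂ, Cm p) ω Y₁ := h₁.manifold.2
  have hb := (H303.X.bdry hI hF hC hK h₁.hol h₁.fibres h₁.snc).1
  have h3 := pull n p X X₁ Y f Δ u Δ₁ h (by rw [hfun]; exact h2) hu hmor
  rw [hfun] at h3
  exact h3.trans (kodF_base hI hF exc h₁ hv hb)

end Vale.Agent.P281.H364.MM
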